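import Vale.Agent.P301Z.Ex.Defs
import Vale.Agent.P272.GEO.Osgood

/-!
# P301, block EXTS: kernels of dimension one of a holomorphic family of linear maps
-/

open scoped Topology
open Set Filter Metric
open Vale.Agent.P272.K

noncomputable section

namespace Vale.Agent.P301Z.Ex

namespace Abs

/-- Schwarz: a bounded holomorphic function is Lipschitz on the smaller ball -/
lemma lip {F : Type*} [NormedAddCommGroup F] [NormedSpace ℂ F] {φ : F → ℂ} {a : F} {r M : ℝ}
    (hφ : DifferentiableOn ℂ φ (ball a r)) (hM : ∀ t ∈ ball a r, ‖φ t‖ ≤ M)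
    {t t' : F} (ht : t ∈ ball a (r / 4)) (ht' : t' ∈ ball a (r / 4)) :
    ‖φ t - φ t'‖ ≤ 4 * M / r * ‖t - t'‖ := by
  have hr : 0 < r := by
    have := (dist_nonneg (x := t) (y := a)).trans_lt (mem_ball.1 ht)
    linarith
  have hsub : ball t' (r / 2) ⊆ ball a r := by
    intro x hx
    have h1 := mem_ball.1 hx
    have h2 := mem_ball.1 ht'
    have h3 := dist_triangle x t' a
    exact mem_ball.2 (by linarith)
  have hmem : t ∈ ball t' (r / 2) := by
    have h1 := mem_ball.1 ht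
    have h2 := mem_ball.1 ht'
    have h3 := dist_triangle_right t t' a
    exact mem_ball.2 (by linarith)
  have hmaps : MapsTo φ (ball t' (r / 2)) (closedBall (φ t') (2 * M)) := by
    intro x hx
    have h1 := hM x (hsub hx)
    have h2 := hM t' (hsub (mem_ball_self (by linarith)))
    have h3 := norm_sub_le (φ x) (φ t')
    rw [mem_closedBall, dist_eq_norm]
    linarith
  have h := Complex.dist_le_div_mul_dist_of_mapsTo_ball (hφ.mono hsub) hmaps hmem
  rw [dist_eq_norm, dist_eq_norm] at h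
  have e : 2 * M / (r / 2) = 4 * M / r := by field_simp; ring
  rwa [e] at h

/-- the difference quotients of a bounded holomorphic function are Lipschitz -/
lemma lip2 {φ : ℂ → ℂ} {a : ℂ} {d M : ℝ} (hφ : DifferentiableOn ℂ φ (ball a d))
    (hM : ∀ t ∈ ball a d, ‖φ t‖ ≤ M) {t t' : ℂ} (ht : t ∈ ball a (d / 4))
    (ht' : t' ∈ ball a (d / 4)) :
    ‖dslope φ a t - dslope φ a t'‖ ≤ 4 * (2 * M / d) / d * ‖t - t'‖ := by
  have hd : 0 < d := by
    have := (dist_nonneg (x := t) (y := a)).trans_lt (mem_ball.1 ht)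
    linarith
  have hmaps : MapsTo φ (ball a d) (closedBall (φ a) (2 * M)) := by
    intro x hx
    have h1 := hM x hx
    have h2 := hM a (mem_ball_self hd)
    have h3 := norm_sub_le (φ x) (φ a)
    rw [mem_closedBall, dist_eq_norm]
    linarith
  exact lip ((Complex.differentiableOn_dslope (ball_mem_nhds a hd)).2 hφ)
    (fun x hx => Complex.norm_dslope_le_div_of_mapsTo_ball hφ hmaps hx) ht ht'

/-- Cauchy criterion for differentiability -/
lemma diff_of {f : ℂ → ℂ} {a : ℂ} {δ K : ℝ} (hδ : 0 < δ) (hK : 0 ≤ K)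
    (h : ∀ t ∈ ball a δ, ∀ t' ∈ ball a δ, t ≠ a → t' ≠ a →
      ‖slope f a t - slope f a t'‖ ≤ K * (‖t - a‖ + ‖t' - a‖)) : DifferentiableAt ℂ f a := by
  have hc : Cauchy (map (slope f a) (𝓝[≠] a)) := by
    refine Metric.cauchy_iff.2 ⟨inferInstance, fun ε hε => ?_⟩
    have hη : 0 < min δ (ε / (2 * (K + 1))) := lt_min hδ (by positivity)
    refine ⟨slope f a '' (ball a (min δ (ε / (2 * (K + 1)))) ∩ {a}ᶜ),
      image_mem_map (inter_mem (mem_nhdsWithin_of_mem_nhds (ball_mem_nhds a hη))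
        self_mem_nhdsWithin), ?_⟩
    rintro _ ⟨t, ⟨ht, hta⟩, rfl⟩ _ ⟨t', ⟨ht', hta'⟩, rfl⟩
    have h1 := h t (ball_subset_ball (min_le_left _ _) ht) t'
      (ball_subset_ball (min_le_left _ _) ht') hta hta'
    have h2 : ‖t - a‖ < ε / (2 * (K + 1)) :=
      (mem_ball_iff_norm.1 ht).trans_le (min_le_right _ _)
    have h3 : ‖t' - a‖ < ε / (2 * (K + 1)) :=
      (mem_ball_iff_norm.1 ht').trans_le (min_le_right _ _)
    rw [lt_div_iff₀ (by positivity)] at h2 h3
    rw [dist_eq_norm]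
    nlinarith [norm_nonneg (t - a), norm_nonneg (t' - a)]
  obtain ⟨b, hb⟩ := cauchy_map_iff_exists_tendsto.1 hc
  exact (hasDerivAt_iff_tendsto_slope.2 hb).differentiableAt

lemma norm_upd {p : ℕ} (s : Cm p) (i : Fin p) (τ : ℂ) :
    ‖Function.update s i τ - s‖ ≤ ‖τ - s i‖ := by
  refine (pi_norm_le_iff_of_nonneg (norm_nonneg _)).2 fun j => ?_
  by_cases h : j = i
  · subst h; simp
  · simp [h]

end Abs

open Abs in
theorem abs : ABS := by
  intro p E _ _ ν Q D ev t₀ r G₀ C₀ hr hD hG₀ hC₀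
  obtain ⟨G, hG0, hG⟩ : ∃ G : ℝ, 0 ≤ G ∧ ∀ t ∈ ball t₀ r, ∀ u q, ‖D t u q‖ ≤ G * ν u :=
    ⟨max G₀ 0, le_max_right _ _, fun t ht u q => (hG₀ t ht u q).trans
      (mul_le_mul_of_nonneg_right (le_max_left _ _) (apply_nonneg ν u))⟩
  obtain ⟨C, hC0, hC⟩ : ∃ C : ℝ, 0 ≤ C ∧ ∀ u (c : ℝ), 0 ≤ c → (∀ q, ‖D t₀ u q‖ ≤ c) →
      ‖ev u‖ ≤ c → ν u ≤ C * c :=
    ⟨max C₀ 0, le_max_right _ _, fun u c hc h1 h2 => (hC₀ u c hc h1 h2).trans
      (mul_le_mul_of_nonneg_right (le_max_left _ _) hc)⟩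
  obtain ⟨K, hK0, hK⟩ : ∃ K : ℝ, 0 ≤ K ∧ ∀ t ∈ ball t₀ (r / 4), ∀ t' ∈ ball t₀ (r / 4), ∀ u q,
      ‖D t u q - D t' u q‖ ≤ K * ν u * ‖t - t'‖ := by
    refine ⟨4 * G / r, by positivity, fun t ht t' ht' u q => ?_⟩
    have h := lip (hD u q) (fun x hx => hG x hx u q) ht ht'
    have e : 4 * (G * ν u) / r = 4 * G / r * ν u := by ring
    rwa [e] at h
  obtain ⟨r', hr0, hr4, hrK⟩ : ∃ r' : ℝ, 0 < r' ∧ r' ≤ r / 4 ∧ C * K * r' ≤ 1 / 2 := by
    refine ⟨min (r / 4) (1 / (2 * (C * K + 1))), lt_min (by positivity) (by positivity),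
      min_le_left _ _, ?_⟩
    have h1 : min (r / 4) (1 / (2 * (C * K + 1))) ≤ 1 / (2 * (C * K + 1)) := min_le_right _ _
    rw [le_div_iff₀ (by positivity)] at h1
    have h2 : 0 < min (r / 4) (1 / (2 * (C * K + 1))) := lt_min (by positivity) (by positivity)
    nlinarith
  have hs4 : ball t₀ r' ⊆ ball t₀ (r / 4) := ball_subset_ball hr4
  have hsr : ball t₀ r' ⊆ ball t₀ r := ball_subset_ball (by linarith)
  have est : ∀ s ∈ ball t₀ r', ∀ u (c : ℝ), 0 ≤ c → (∀ q, ‖D s u q‖ ≤ c) → ‖ev u‖ ≤ c →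
      ν u ≤ 2 * C * c := by
    intro s hs u c hc h1 h2
    have hν := apply_nonneg ν u
    have hp : 0 ≤ K * ν u * r' := by positivity
    have h3 := hC u (c + K * ν u * r') (by positivity) (fun q => by
      have a1 := hK t₀ (mem_ball_self (by positivity)) s (hs4 hs) u q
      have a2 : ‖t₀ - s‖ ≤ r' := by
        rw [norm_sub_rev]; exact (mem_ball_iff_norm.1 hs).le
      have a3 : K * ν u * ‖t₀ - s‖ ≤ K * ν u * r' :=
        mul_le_mul_of_nonneg_left a2 (by positivity)
      have a4 := norm_le_insert' (D t₀ u q) (D s u q)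
      linarith [h1 q]) (by linarith)
    have h4 : C * K * r' * ν u ≤ 1 / 2 * ν u := mul_le_mul_of_nonneg_right hrK hν
    nlinarith
  refine ⟨r', hr0, by linarith, fun t ht u h1 h2 => ?_, fun U hU => ?_⟩
  · have h := est t ht u 0 le_rfl (fun q => by simp [h1]) (by simp [h2])
    exact le_antisymm (by simpa using h) (apply_nonneg ν u)
  have hb : ∀ t ∈ ball t₀ r', ν (U t) ≤ 2 * C := fun t ht => by
    simpa using est t ht (U t) 1 zero_le_one (fun q => by simp [(hU t ht).1])
      (by simp [(hU t ht).2])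
  obtain ⟨L, hL0, hL⟩ : ∃ L : ℝ, 0 ≤ L ∧ ∀ t ∈ ball t₀ r', ∀ t' ∈ ball t₀ r',
      ν (U t - U t') ≤ L * ‖t - t'‖ := by
    refine ⟨2 * C * (K * (2 * C)), by positivity, fun t ht t' ht' => ?_⟩
    have h := est t' ht' (U t - U t') (K * (2 * C) * ‖t - t'‖) (by positivity) (fun q => by
      have a1 := hK t' (hs4 ht') t (hs4 ht) (U t) q
      rw [(hU t ht).1, norm_sub_rev t' t] at a1
      have a2 : K * ν (U t) * ‖t - t'‖ ≤ K * (2 * C) * ‖t - t'‖ := by
        gcongr; exact hb t ht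
      rw [map_sub, (hU t' ht').1]
      exact a1.trans a2) (by
        rw [map_sub, (hU t ht).2, (hU t' ht').2, sub_self, norm_zero]; positivity)
    calc _ ≤ _ := h
      _ = _ := by ring
  refine ⟨⟨L, hL⟩, fun l hl => P272.GEO.osgood isOpen_ball ?_ fun s hs i => ?_⟩
  · refine (LipschitzOnWith.of_dist_le_mul (K := ⟨L, hL0⟩) fun t ht t' ht' => ?_).continuousOn
    rw [dist_eq_norm, dist_eq_norm, ← map_sub]
    exact (hl _).trans (hL t ht t' ht')
  -- one variable
  obtain ⟨d, hd, hσ⟩ : ∃ d : ℝ, 0 < d ∧ ∀ τ ∈ ball (s i) d,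
      Function.update s i τ ∈ ball t₀ r' := by
    refine ⟨r' - dist s t₀, sub_pos.2 (mem_ball.1 hs), fun τ hτ => ?_⟩
    have h1 := norm_upd s i τ
    have h2 := mem_ball_iff_norm.1 hτ
    have h3 := dist_triangle (Function.update s i τ) s t₀
    rw [dist_eq_norm (Function.update s i τ) s] at h3
    exact mem_ball.2 (by linarith)
  have hσd : Differentiable ℂ fun τ : ℂ => Function.update s i τ :=
    differentiable_pi.2 fun j => by
      by_cases h : j = i
      · subst h; simp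
      · simp [h]
  have hφ : ∀ q, DifferentiableOn ℂ (fun τ : ℂ => D (Function.update s i τ) (U s) q)
      (ball (s i) d) := fun q =>
    (hD (U s) q).comp hσd.differentiableOn fun τ hτ => hsr (hσ τ hτ)
  have hφb : ∀ q, ∀ τ ∈ ball (s i) d, ‖D (Function.update s i τ) (U s) q‖ ≤ G * (2 * C) :=
    fun q τ hτ => (hG _ (hsr (hσ τ hτ)) _ q).trans (mul_le_mul_of_nonneg_left (hb s hs) hG0)
  have hd4 : ball (s i) (d / 4) ⊆ ball (s i) d := ball_subset_ball (by linarith)
  have key : ∀ τ ∈ ball (s i) d, τ ≠ s i → ∀ q,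
      ‖D s ((τ - s i)⁻¹ • (U (Function.update s i τ) - U s)) q +
        dslope (fun τ : ℂ => D (Function.update s i τ) (U s) q) (s i) τ‖ ≤
        K * L * ‖τ - s i‖ := by
    intro τ hτ hne q
    have hn : 0 < ‖τ - s i‖ := norm_pos_iff.2 (sub_ne_zero.2 hne)
    have a1 := hK s (hs4 hs) _ (hs4 (hσ τ hτ)) (U (Function.update s i τ) - U s) q
    have a2 := hL _ (hσ τ hτ) s hs
    have a3 := norm_upd s i τ
    have e : D s ((τ - s i)⁻¹ • (U (Function.update s i τ) - U s)) q +
        dslope (fun τ : ℂ => D (Function.update s i τ) (U s) q) (s i) τ =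
        (τ - s i)⁻¹ * (D s (U (Function.update s i τ) - U s) q -
          D (Function.update s i τ) (U (Function.update s i τ) - U s) q) := by
      rw [dslope_of_ne _ hne, slope_def_field, map_smul, map_sub (D (Function.update s i τ)),
        (hU _ (hσ τ hτ)).1, Function.update_eq_self, (hU s hs).1]
      simp only [Pi.smul_apply, Pi.sub_apply, Pi.zero_apply, smul_eq_mul]
      ring
    rw [e, norm_mul, norm_inv, inv_mul_le_iff₀ hn]
    rw [norm_sub_rev s] at a1
    calc _ ≤ _ := a1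
      _ ≤ K * (L * ‖τ - s i‖) * ‖τ - s i‖ := by
        gcongr
        exact a2.trans (mul_le_mul_of_nonneg_left a3 hL0)
      _ = _ := by ring
  have hK2 : 0 ≤ 4 * (2 * (G * (2 * C)) / d) / d := by positivity
  refine diff_of (δ := d / 4) (K := 2 * C * (4 * (2 * (G * (2 * C)) / d) / d + K * L))
    (by positivity) (by positivity) fun τ hτ τ' hτ' hne hne' => ?_
  have h := est s hs ((τ - s i)⁻¹ • (U (Function.update s i τ) - U s) -
      (τ' - s i)⁻¹ • (U (Function.update s i τ') - U s))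
    ((4 * (2 * (G * (2 * C)) / d) / d + K * L) * (‖τ - s i‖ + ‖τ' - s i‖)) (by positivity)
    (fun q => by
      have a1 := key τ (hd4 hτ) hne q
      have a2 := key τ' (hd4 hτ') hne' q
      have a3 := lip2 (hφ q) (hφb q) hτ hτ'
      have a4 : ‖τ - τ'‖ ≤ ‖τ - s i‖ + ‖τ' - s i‖ := by
        have := norm_sub_le (τ - s i) (τ' - s i)
        rwa [sub_sub_sub_cancel_right] at this
      have a5 := mul_le_mul_of_nonneg_left a4 hK2
      rw [map_sub, Pi.sub_apply]
      generalize D s ((τ - s i)⁻¹ • (U (Function.update s i τ) - U s)) q = x at *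
      generalize D s ((τ' - s i)⁻¹ • (U (Function.update s i τ') - U s)) q = x' at *
      generalize dslope (fun τ : ℂ => D (Function.update s i τ) (U s) q) (s i) τ = y at *
      generalize dslope (fun τ : ℂ => D (Function.update s i τ) (U s) q) (s i) τ' = y' at *
      have e : x - x' = (x + y) - (x' + y') - (y - y') := by ring
      have a6 := norm_sub_le ((x + y) - (x' + y')) (y - y')
      have a7 := norm_sub_le (x + y) (x' + y')
      rw [e]
      nlinarith)
    (by
      rw [map_sub, map_smul, map_smul, map_sub, map_sub, (hU _ (hσ τ (hd4 hτ))).2,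
        (hU _ (hσ τ' (hd4 hτ'))).2, (hU s hs).2]
      simp only [sub_self, smul_zero, norm_zero]
      positivity)
  have h2 := (hl _).trans h
  rw [map_sub, map_smul, map_smul, map_sub, map_sub] at h2
  rw [slope_def_module, slope_def_module]
  simp only [Function.update_eq_self]
  calc _ ≤ _ := h2
    _ = _ := by ring

end Vale.Agent.P301Z.Ex
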