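import Vale.Agent.P301Z.Ex.Defs
import Vale.Agent.P299.H720.Montel

/-!
# P301, block EXTS: normalised solutions of gluing conditions
-/

open scoped Topology
open Set Filter Metric Asymptotics
open Vale.Agent.P272.K
open Vale.Agent.P299.H720 (montel_full)

set_option linter.all false

noncomputable section

namespace Vale.Agent.P301Z.Ex

namespace VbX

section

variable {E F G : Type*} [NormedAddCommGroup E] [NormedSpace ℂ E] [NormedAddCommGroup F]
  [NormedSpace ℂ F] [NormedAddCommGroup G] [NormedSpace ℂ G]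

theorem joint [ProperSpace F] {h : E × F → G} {U : Set (E × F)} (hU : IsOpen U)
    (hc : ContinuousOn h U) (hz : ∀ p ∈ U, DifferentiableAt ℂ (fun z => h (p.1, z)) p.2)
    {t₀ : E} {ζ : E → F} (h0 : (t₀, ζ t₀) ∈ U) (hζ : DifferentiableAt ℂ ζ t₀)
    (ht : DifferentiableAt ℂ (fun t => h (t, ζ t)) t₀) : DifferentiableAt ℂ h (t₀, ζ t₀) := by
  obtain ⟨R, hR, hB⟩ := Metric.nhds_basis_closedBall.mem_iff.1 (hU.mem_nhds h0)
  have mem : ∀ t z, t ∈ closedBall t₀ R → z ∈ closedBall (ζ t₀) R → (t, z) ∈ U := fun t z a b =>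
    hB (by rw [← closedBall_prod_same]; exact ⟨a, b⟩)
  have d1 : DifferentiableAt ℂ (fun p : E × F => h (t₀, p.2)) (t₀, ζ t₀) :=
    (hz _ h0).comp (t₀, ζ t₀) differentiableAt_snd
  have d2 : DifferentiableAt ℂ (fun p : E × F => h (t₀, ζ p.1)) (t₀, ζ t₀) :=
    DifferentiableAt.comp (g := fun z => h (t₀, z)) (t₀, ζ t₀) (hz _ h0)
      (hζ.comp (t₀, ζ t₀) differentiableAt_fst)
  have d3 : DifferentiableAt ℂ (fun p : E × F => h (p.1, ζ p.1)) (t₀, ζ t₀) :=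
    DifferentiableAt.comp (g := fun t => h (t, ζ t)) (t₀, ζ t₀) ht differentiableAt_fst
  have d4 : DifferentiableAt ℂ (fun p : E × F => p.2 - ζ p.1) (t₀, ζ t₀) :=
    differentiableAt_snd.sub (hζ.comp (t₀, ζ t₀) differentiableAt_fst)
  let k : E × F → G := fun p => h p - h (t₀, p.2)
  have o1 : (fun p : E × F => k p - k (p.1, ζ p.1)) =o[𝓝 (t₀, ζ t₀)] fun p => p.2 - ζ p.1 := by
    refine isLittleO_iff.2 fun ε hε => ?_
    have u : ∀ᶠ t in 𝓝 t₀, ∀ z ∈ closedBall (ζ t₀) R, ‖k (t, z)‖ < ε * R / 4 := by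
      refine (isCompact_closedBall _ _).eventually_forall_of_forall_eventually fun z hz' => ?_
      have m := mem t₀ z (mem_closedBall_self hR.le) hz'
      have c1 := hc.continuousAt (hU.mem_nhds m)
      have c2 : ContinuousAt k (t₀, z) := c1.sub (ContinuousAt.comp_of_eq c1 (by fun_prop) rfl)
      exact c2.norm.eventually_lt_const (by simp [k]; positivity)
    have c3 : ContinuousAt (fun p : E × F => ζ p.1) (t₀, ζ t₀) :=
      hζ.continuousAt.comp_of_eq continuousAt_fst rfl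
    filter_upwards [continuousAt_fst.eventually u,
      continuousAt_fst.eventually (closedBall_mem_nhds t₀ hR),
      c3.eventually (ball_mem_nhds (ζ t₀) (half_pos hR)),
      d4.continuousAt.eventually (ball_mem_nhds _ (half_pos hR))] with p a b c d
    have s : ball (ζ p.1) (R / 2) ⊆ closedBall (ζ t₀) R := fun z hz' =>
      mem_closedBall.2 ((dist_triangle _ (ζ p.1) _).trans (by
        linarith [mem_ball.1 hz', mem_ball.1 c]))
    have e := Complex.dist_le_div_mul_dist_of_mapsTo_ball (f := fun z => k (p.1, z))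
      (c := ζ p.1) (R₁ := R / 2) (R₂ := ε * R / 2) (z := p.2)
      (fun z hz' => ((hz _ (mem _ _ b (s hz'))).sub
        (hz (t₀, z) (mem t₀ z (mem_closedBall_self hR.le) (s hz')))).differentiableWithinAt)
      (fun z hz' => by
        rw [mem_closedBall, dist_eq_norm]
        linarith [norm_sub_le (k (p.1, z)) (k (p.1, ζ p.1)), a z (s hz'),
          a _ (s (mem_ball_self (half_pos hR)))])
      (by simpa [dist_eq_norm] using d)
    rwa [dist_eq_norm, dist_eq_norm, show ε * R / 2 / (R / 2) = ε by field_simp] at e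
  have d5 : HasFDerivAt (𝕜 := ℂ) (fun p : E × F => k p - k (p.1, ζ p.1)) 0 (t₀, ζ t₀) := by
    rw [hasFDerivAt_iff_isLittleO]
    simpa using o1.trans_isBigO (by simpa using d4.isBigO_sub)
  have e : h = fun p => (k p - k (p.1, ζ p.1)) + (h (t₀, p.2) + (h (p.1, ζ p.1) - h (t₀, ζ p.1))) :=
    funext fun p => by simp [k]
  rw [e]
  exact d5.differentiableAt.add (d1.add (d3.sub d2))

end

variable {p N : ℕ} {ι : Type} [Fintype ι] (z : ι → Cm N) (ρ : ι → ℝ)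

/-- the space of cochains -/
def Sp : Submodule ℂ (ι → Cm N → ℂ) where
  carrier := {u | Coch z ρ u}
  zero_mem' c := ⟨differentiableOn_const 0, 0, fun _ _ => norm_zero.le⟩
  add_mem' {u v} hu hv c := by
    obtain ⟨a, M, b⟩ := hu c
    obtain ⟨a', M', b'⟩ := hv c
    exact ⟨a.add a', M + M', fun w hw => norm_add_le_of_le (b w hw) (b' w hw)⟩
  smul_mem' k u hu c := by
    obtain ⟨a, M, b⟩ := hu c
    exact ⟨a.const_smul k, ‖k‖ * M, fun w hw => (norm_smul_le k (u c w)).trans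
      (mul_le_mul_of_nonneg_left (b w hw) (norm_nonneg k))⟩

variable {z ρ}

/-- the supremum -/
def nu (u : Sp z ρ) : ℝ :=
  ⨆ x : {x : ι × Cm N // x.2 ∈ ball (z x.1) (4 * ρ x.1)}, ‖u.1 x.1.1 x.1.2‖

theorem le_nu (u : Sp z ρ) {c : ι} {w : Cm N} (hw : w ∈ ball (z c) (4 * ρ c)) :
    ‖u.1 c w‖ ≤ nu u := by
  choose M hM using fun c => (u.2 c).2
  obtain ⟨B, hB⟩ := (finite_range M).bddAbove
  exact le_ciSup (f := fun x : {x : ι × Cm N // x.2 ∈ ball (z x.1) (4 * ρ x.1)} =>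
    ‖u.1 x.1.1 x.1.2‖) ⟨B, forall_mem_range.2 fun x =>
      (hM _ _ x.2).trans (hB (mem_range_self _))⟩ ⟨(c, w), hw⟩

theorem nu_le (u : Sp z ρ) {M : ℝ} (h0 : 0 ≤ M)
    (h : ∀ c, ∀ w ∈ ball (z c) (4 * ρ c), ‖u.1 c w‖ ≤ M) : nu u ≤ M :=
  Real.iSup_le (fun x => h _ _ x.2) h0

theorem nu_nonneg (u : Sp z ρ) : 0 ≤ nu u := Real.iSup_nonneg fun _ => norm_nonneg _

/-- the seminorm -/
def sn : Seminorm ℂ (Sp z ρ) :=
  Seminorm.ofSMulLE nu
    (le_antisymm (nu_le _ le_rfl fun _ _ _ => norm_zero.le) (nu_nonneg _))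
    (fun u v => nu_le _ (add_nonneg (nu_nonneg u) (nu_nonneg v)) fun _ _ hw =>
      norm_add_le_of_le (le_nu u hw) (le_nu v hw))
    fun k u => nu_le _ (mul_nonneg (norm_nonneg k) (nu_nonneg u)) fun c w hw =>
      (norm_smul_le k (u.1 c w)).trans (mul_le_mul_of_nonneg_left (le_nu u hw) (norm_nonneg k))

/-- evaluation -/
def evl (c : ι) (w : Cm N) : Sp z ρ →ₗ[ℂ] ℂ where
  toFun u := u.1 c w
  map_add' _ _ := rfl
  map_smul' _ _ := rfl

variable {t₀ : Cm p} {r : ℝ} (Γ : Glue p N ι z ρ t₀ r)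

/-- the gluing conditions -/
def dd (t : Cm p) : Sp z ρ →ₗ[ℂ] (Γ.Q → ℂ) :=
  LinearMap.pi fun q => evl (Γ.c q) (Γ.w q) - ∑ c', Γ.g q c' t • evl c' (Γ.φ q c' t)

theorem dd_apply (t : Cm p) (u : Sp z ρ) (q : Γ.Q) :
    dd Γ t u q = u.1 (Γ.c q) (Γ.w q) - ∑ c', Γ.g q c' t * u.1 c' (Γ.φ q c' t) := by
  simp only [dd, LinearMap.pi_apply, LinearMap.sub_apply, LinearMap.sum_apply,
    LinearMap.smul_apply, smul_eq_mul]
  rfl

theorem sum_le {t : Cm p} (ht : t ∈ ball t₀ r) (q : Γ.Q) {a : ι → ℂ} {δ : ℝ}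
    (h : ∀ c, ‖a c‖ ≤ δ) : ‖∑ c', Γ.g q c' t * a c'‖ ≤ Fintype.card ι * (|Γ.G| * δ) := by
  refine (norm_sum_le _ _).trans ((Finset.sum_le_card_nsmul _ _ (|Γ.G| * δ) fun c _ => ?_).trans
    (by rw [Finset.card_univ, nsmul_eq_mul]))
  rw [norm_mul]
  exact mul_le_mul ((Γ.bdd q c t ht).trans (le_abs_self _)) (h c) (norm_nonneg _) (abs_nonneg _)

theorem small (hr : 0 < r) {c₀ : ι} {w₀ : Cm N} (hw : w₀ ∈ ball (z c₀) (4 * ρ c₀))
    (h0 : ∀ u, Γ.Sol t₀ u → u c₀ w₀ = 0 → ∀ c, ∀ w ∈ ball (z c) (4 * ρ c), u c w = 0)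
    (v : ℕ → Sp z ρ) (h1 : ∀ n, nu (v n) ≤ 1)
    (h2 : ∀ n q, ‖dd Γ t₀ (v n) q‖ ≤ 1 / ((n : ℝ) + 1))
    (h3 : ∀ n, ‖(v n).1 c₀ w₀‖ ≤ 1 / ((n : ℝ) + 1)) : ∃ n, nu (v n) ≤ 1 / 2 := by
  have ht := mem_ball_self (x := t₀) hr
  have e0 : Tendsto (fun n : ℕ => 1 / ((n : ℝ) + 1)) (hyperfilter ℕ) (𝓝 0) :=
    tendsto_one_div_add_atTop_nhds_zero_nat.mono_left Nat.hyperfilter_le_atTop
  have hb : ∀ n c, ∀ w ∈ ball (z c) (4 * ρ c), ‖(v n).1 c w‖ ≤ 1 := fun n c w hw =>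
    (le_nu _ hw).trans (h1 n)
  choose g hd hu _ using fun c => montel_full (hyperfilter ℕ) (f := fun n => (v n).1 c)
    (U := ball (z c) (4 * ρ c)) isOpen_ball fun x hx => by
      obtain ⟨ε, hε, hs⟩ := Metric.isOpen_iff.1 isOpen_ball x hx
      exact ⟨ε, hε, 1, Eventually.of_forall fun n =>
        ⟨((v n).2 c).1.mono hs, fun y hy => hb n c y (hs hy)⟩⟩
  have pt := fun c w hw => (hu c).tendsto_at (a := w) hw
  have g0 := h0 g ⟨fun c => ⟨hd c, 1, fun w hw =>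
    le_of_tendsto' (pt c w hw).norm fun n => hb n c w hw⟩, fun q => by
      have a1 := (pt _ _ (Γ.mem q)).sub (tendsto_finsetSum Finset.univ fun c' _ =>
        (pt c' _ (Γ.maps q c' t₀ ht)).const_mul (Γ.g q c' t₀))
      exact sub_eq_zero.1 (tendsto_nhds_unique a1
        (squeeze_zero_norm (fun n => by rw [← dd_apply]; exact h2 n q) e0))⟩
    (tendsto_nhds_unique (pt _ _ hw) (squeeze_zero_norm h3 e0))
  set δ : ℝ := 1 / (4 * (Fintype.card ι * |Γ.G| + 1)) with hδ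
  have δ0 : 0 < δ := by positivity
  have sb : ∀ c, closedBall (z c) (2 * ρ c) ⊆ ball (z c) (4 * ρ c) := fun c =>
    closedBall_subset_ball (by linarith [Γ.pos c])
  have un := eventually_all.2 fun c => Metric.tendstoUniformlyOn_iff.1
    ((tendstoLocallyUniformlyOn_iff_tendstoUniformlyOn_of_compact
      (isCompact_closedBall (z c) (2 * ρ c))).1 ((hu c).mono (sb c))) δ δ0
  obtain ⟨n, a1, a2⟩ := (un.and (e0.eventually (gt_mem_nhds (by norm_num : (0 : ℝ) < 1 / 4)))).exists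
  refine ⟨n, nu_le _ (by norm_num) fun c w hw => ?_⟩
  obtain ⟨q, rfl, rfl, hq⟩ := Γ.big c w hw
  have a3 := sum_le Γ ht q (a := fun c' => (v n).1 c' (Γ.φ q c' t₀)) (δ := δ) fun c' => by
    have := a1 c' _ (hq c')
    rw [g0 c' _ (sb c' (hq c')), dist_zero_left] at this
    exact this.le
  have a4 := h2 n q
  rw [dd_apply] at a4
  have a5 : Fintype.card ι * (|Γ.G| * δ) ≤ 1 / 4 := by
    rw [hδ, ← mul_assoc, mul_one_div, div_le_div_iff₀ (by positivity) (by norm_num)]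
    linarith
  have a6 := norm_le_norm_sub_add ((v n).1 (Γ.c q) (Γ.w q))
    (∑ c', Γ.g q c' t₀ * (v n).1 c' (Γ.φ q c' t₀))
  linarith

theorem est (hr : 0 < r) {c₀ : ι} {w₀ : Cm N} (hw : w₀ ∈ ball (z c₀) (4 * ρ c₀))
    (h0 : ∀ u, Γ.Sol t₀ u → u c₀ w₀ = 0 → ∀ c, ∀ w ∈ ball (z c) (4 * ρ c), u c w = 0) :
    ∃ C : ℝ, ∀ (u : Sp z ρ) (c : ℝ), 0 ≤ c → (∀ q, ‖dd Γ t₀ u q‖ ≤ c) → ‖evl c₀ w₀ u‖ ≤ c →
      sn u ≤ C * c := by
  by_contra h
  push Not at h
  choose u c c0 h1 h2 h3 using fun n : ℕ => h ((n : ℝ) + 1)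
  have p0 : ∀ n, 0 < sn (u n) := fun n => lt_of_le_of_lt (by have := c0 n; positivity) (h3 n)
  have nk : ∀ n, ‖((sn (u n) : ℝ) : ℂ)⁻¹‖ = (sn (u n))⁻¹ := fun n => by
    rw [norm_inv, Complex.norm_real, Real.norm_of_nonneg (p0 n).le]
  have k1 : ∀ n, nu (((sn (u n) : ℝ) : ℂ)⁻¹ • u n) = 1 := fun n =>
    (map_smul_eq_mul sn _ (u n)).trans (by rw [nk, inv_mul_cancel₀ (p0 n).ne'])
  have k2 : ∀ n (x : ℂ), ‖x‖ ≤ c n → ‖((sn (u n) : ℝ) : ℂ)⁻¹ • x‖ ≤ 1 / ((n : ℝ) + 1) :=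
    fun n x hx => by
      rw [norm_smul, nk, inv_mul_le_iff₀ (p0 n), mul_one_div, le_div_iff₀ (by positivity)]
      nlinarith [h3 n, (by positivity : (0 : ℝ) < (n : ℝ) + 1)]
  obtain ⟨n, hn⟩ := small Γ hr hw h0 (fun n => ((sn (u n) : ℝ) : ℂ)⁻¹ • u n) (fun n => (k1 n).le)
    (fun n q => by rw [map_smul]; exact k2 n _ (h1 n q)) fun n => k2 n _ (h2 n)
  rw [k1] at hn
  norm_num at hn

end VbX

open VbX

theorem vb_of (hA : ABS) : VB := by
  intro p N ι _ z ρ t₀ r hr Γ c₀ w₀ hw h0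
  obtain ⟨C, hC⟩ := est Γ hr hw h0
  obtain ⟨r', r0, r1, h1, h2⟩ := hA p (Sp z ρ) sn Γ.Q (dd Γ) (evl c₀ w₀) t₀ r
    (1 + Fintype.card ι * |Γ.G|) C hr
    (fun u q => by
      simp only [dd_apply]
      exact (differentiableOn_const _).sub (DifferentiableOn.fun_sum fun c' _ =>
        (Γ.holg q c').mul ((u.2 c').1.comp (Γ.holφ q c') fun t ht => Γ.maps q c' t ht)))
    (fun t ht u q => by
      rw [dd_apply]
      refine (norm_sub_le_of_le (le_nu u (Γ.mem q))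
        (sum_le Γ ht q fun c' => le_nu u (Γ.maps q c' t ht))).trans (le_of_eq ?_)
      show _ = _ * nu u
      ring) hC
  have sol : ∀ t (u : Sp z ρ), Γ.Sol t u.1 → dd Γ t u = 0 := fun t u hu =>
    funext fun q => (dd_apply Γ t u q).trans (sub_eq_zero.2 (hu.2 q))
  refine ⟨r', r0, r1, fun t ht u hu e c w hw' => norm_le_zero_iff.1
    ((le_nu ⟨u, hu.1⟩ hw').trans (h1 t ht ⟨u, hu.1⟩ (sol t _ hu) e).le), fun U hU c => ?_⟩
  classical
  let U' : Cm p → Sp z ρ := fun t => if h : Coch z ρ (U t) then ⟨U t, h⟩ else 0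
  have eU : ∀ t ∈ ball t₀ r', (U' t).1 = U t := fun t ht => by
    simp only [U', dif_pos (hU t ht).1.1]
  obtain ⟨⟨L, hL⟩, h3⟩ := h2 U' fun t ht => ⟨sol t _ (by rw [eU t ht]; exact (hU t ht).1),
    (congrFun (congrFun (eU t ht) c₀) w₀).trans (hU t ht).2⟩
  have hz : ∀ x ∈ ball t₀ r' ×ˢ ball (z c) (4 * ρ c),
      DifferentiableAt ℂ (fun w => U x.1 c w) x.2 := fun x hx =>
    ((hU x.1 hx.1).1.1 c).1.differentiableAt (isOpen_ball.mem_nhds hx.2)
  have hc : ContinuousOn (fun x : Cm p × Cm N => U x.1 c x.2)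
      (ball t₀ r' ×ˢ ball (z c) (4 * ρ c)) := fun x hx => by
    have a1 : ContinuousAt (fun y : Cm p × Cm N => U x.1 c y.2) x :=
      ContinuousAt.comp (g := fun w => U x.1 c w) (hz x hx).continuousAt continuousAt_snd
    have a2 : Tendsto (fun y : Cm p × Cm N => U y.1 c y.2 - U x.1 c y.2)
        (𝓝[ball t₀ r' ×ˢ ball (z c) (4 * ρ c)] x) (𝓝 0) := by
      refine squeeze_zero_norm' (a := fun y => L * ‖y.1 - x.1‖) ?_ ?_
      · filter_upwards [self_mem_nhdsWithin] with y hy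
        rw [← eU _ hy.1, ← eU _ hx.1]
        exact (le_nu (U' y.1 - U' x.1) hy.2).trans (hL _ hy.1 _ hx.1)
      · refine tendsto_nhdsWithin_of_tendsto_nhds (Continuous.tendsto' (by fun_prop) _ _ ?_)
        simp
    have a3 := a2.add (a1.tendsto.mono_left nhdsWithin_le_nhds)
    simp only [sub_add_cancel, zero_add] at a3
    exact a3
  intro x hx
  refine (joint (ζ := fun _ => x.2) (t₀ := x.1) (isOpen_ball.prod isOpen_ball) hc hz hx
    (differentiableAt_const _) ?_).differentiableWithinAt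
  refine (((h3 (evl c x.2) fun u => le_nu u hx.2).congr fun t ht => ?_).differentiableAt
    (isOpen_ball.mem_nhds hx.1))
  exact (congrFun (congrFun (eU t ht) c) x.2).symm

end Vale.Agent.P301Z.Ex
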