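import Vale.Agent.P301Z.Ex.Defs
import Vale.Agent.P301Z.Al.Defs

/-!
# P301, block EXTS: the statement of block ALG
-/

open scoped Manifold ContDiff Topology Matrix
open Set Filter Metric
open Vale.Agent.P272.K Vale.Agent.P281Z
open Vale.Agent.P277Z (Hol at_chart)

noncomputable section

namespace Vale.Agent.P301Z.Ex

theorem Rel.al {D p N : ℕ} {F : Al.Fy D p N} {W : Set F.Z.X} {τ : Chart p F.Z.X}
    {s : ∀ t, MF (F.Y t)} (h : Rel F.f F.j W τ s) : F.Rel W s := fun x hx => by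
  obtain ⟨Θ, γ, h1, h2, h3, -, h5⟩ := h x hx
  refine ⟨fun a y => (Θ y).2 a, fun y => γ (Θ y), fun a => ?_, fun a b => ?_, ?_⟩
  · exact ((h1.an x h2).cmp (G := fun v : Cm p × Cm N => v.2) analyticAt_snd).hol a
  · exact (h1.an x h2).cmp (h3 _ (Θ.map_source h2) a b)
  · filter_upwards [Θ.open_source.mem_nhds h2] with x' hx' t ht y hy e he
    subst hy
    exact h5 t ht y hx' e he

theorem exts_of (h : EXP) : Al.EXTS := by
  intro D p N F hs o ho
  obtain ⟨W, s, h1, h2, h3, -, -, h4, h5⟩ := h D p N F.V F.Z F.f o (chartAt (Cm p) o) F.Y F.j F.U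
    F.hol (at_chart o) (F.opn.mem_nhds ho) (fun x hx => F.sbm x (hx ▸ ho))
    (fun t ht => ⟨F.emb t ht, let ⟨s, k1, k2, _⟩ := hs t ht; ⟨s, k1, k2⟩⟩)
    (let ⟨s, _, _, k⟩ := hs o ho; ⟨s, k⟩)
  exact ⟨W, s, h1, h2, h3, h4, h5.al⟩

end Vale.Agent.P301Z.Ex
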