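import Vale.Agent.P301Z.Ex.Defs
import Vale.Agent.P268.Hol

/-!
# P301, block EXTS: the theorem in the coordinates of the family
-/

open scoped Manifold ContDiff Topology Matrix
open Set Filter Metric
open Vale.Agent.P272.K Vale.Agent.P281Z
open Vale.Agent.P277Z (Hol at_chart)
open Vale.Agent.P301.H599 (IsHolTwoForm)

noncomputable section

namespace Vale.Agent.P301Z.Ex

namespace Exc

variable {p N : ℕ} {Y : Cm p → Mf N} {t₀ : Cm p} {r : ℝ} (F : FC Y t₀ r)

/-- the index set of the coefficients -/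
abbrev I : Type := Fin F.A × Fin N × Fin N

/-- the gluing conditions -/
abbrev QQ : Type :=
  (Σ a : Fin F.A × Fin F.A, F.Q a.1 a.2) × Fin N × Fin N ⊕
    (Σ a : Fin F.A, ball (F.z a) (4 * F.ρ a)) × Fin N × Fin N

/-- the Jacobian matrix of the change of coordinates -/
def J (a a' : Fin F.A) (w : Cm N) (t : Cm p) : Matrix (Fin N) (Fin N) ℂ :=
  jacM (F.c t a) (F.c t a') ((F.c t a).symm w)

theorem mem_z (a : Fin F.A) : F.z a ∈ ball (F.z a) (4 * F.ρ a) :=
  mem_ball_self (by linarith [F.pos a])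

theorem ball_24 (a : Fin F.A) : ball (F.z a) (2 * F.ρ a) ⊆ ball (F.z a) (4 * F.ρ a) :=
  ball_subset_ball (by linarith [F.pos a])

theorem ball_14 (a : Fin F.A) : ball (F.z a) (F.ρ a) ⊆ ball (F.z a) (4 * F.ρ a) :=
  ball_subset_ball (by linarith [F.pos a])

open Classical in
/-- the gluing data -/
def glue (hr : 0 < r) : Glue p N (I F) (fun c => F.z c.1) (fun c => F.ρ c.1) t₀ r where
  Q := QQ F
  c := Sum.elim (fun q => (q.1.1.1, q.2)) fun q => (q.1.1, q.2)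
  w := Sum.elim (fun q => q.1.2.1) fun q => q.1.2.1
  g := Sum.elim (fun q c t => if c.1 = q.1.1.2 then
      J F q.1.1.1 q.1.1.2 q.1.2.1 t c.2.1 q.2.1 * J F q.1.1.1 q.1.1.2 q.1.2.1 t c.2.2 q.2.2 else 0)
    fun q c _ => if c = (q.1.1, q.2.2, q.2.1) then -1 else 0
  φ := Sum.elim (fun q c t => if c.1 = q.1.1.2 then
      F.c t q.1.1.2 ((F.c t q.1.1.1).symm q.1.2.1) else F.z c.1)
    fun q c _ => if c.1 = q.1.1 then q.1.2.1 else F.z c.1
  G := F.G * F.G + 1
  pos c := F.pos c.1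
  mem := by
    rintro (q | q)
    · exact F.sub _ _ q.1.2.2
    · exact q.1.2.2
  holg := by
    rintro (q | q) c
    · simp only [Sum.elim_inl]
      split_ifs
      · exact (F.holJ _ _ _ q.1.2.2 _ _).mul (F.holJ _ _ _ q.1.2.2 _ _)
      · exact differentiableOn_const _
    · exact differentiableOn_const _
  bdd := by
    rintro (q | q) c t ht
    · simp only [Sum.elim_inl]
      split_ifs
      · have h1 := F.bdd t ht _ _ _ q.1.2.2 c.2.1 q.2.1
        have h2 := F.bdd t ht _ _ _ q.1.2.2 c.2.2 q.2.2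
        rw [norm_mul]
        exact (mul_le_mul h1 h2 (norm_nonneg _) ((norm_nonneg _).trans h1)).trans (by linarith)
      · rw [norm_zero]
        nlinarith [mul_self_nonneg F.G]
    · simp only [Sum.elim_inr]
      split_ifs
      · rw [norm_neg, norm_one]
        nlinarith [mul_self_nonneg F.G]
      · rw [norm_zero]
        nlinarith [mul_self_nonneg F.G]
  holφ := by
    rintro (q | q) c
    · simp only [Sum.elim_inl]
      split_ifs
      · exact F.hol _ _ _ q.1.2.2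
      · exact differentiableOn_const _
    · exact differentiableOn_const _
  maps := by
    rintro (q | q) c t ht
    · simp only [Sum.elim_inl]
      split_ifs with h
      · rw [h]
        exact ball_24 F _ (F.src t ht _ _ _ q.1.2.2).2
      · exact mem_z F _
    · simp only [Sum.elim_inr]
      split_ifs with h
      · rw [h]
        exact q.1.2.2
      · exact mem_z F _
  big := by
    intro c w hw
    have h0 : t₀ ∈ ball t₀ r := mem_ball_self hr
    obtain ⟨a', h1, h2⟩ := F.cover0 ((F.c t₀ c.1).symm w)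
    have hq := F.big c.1 a' w hw h1 h2
    refine ⟨Sum.inl (⟨(c.1, a'), ⟨w, hq⟩⟩, c.2), rfl, rfl, fun c' => ?_⟩
    simp only [Sum.elim_inl]
    split_ifs with h
    · rw [h]
      exact ball_subset_closedBall (F.src t₀ h0 _ _ _ hq).2
    · exact mem_closedBall_self (by linarith [F.pos c'.1])

variable {F}

/-- the coefficients of a family of matrices -/
def co (γ : Fin F.A → Cm N → Matrix (Fin N) (Fin N) ℂ) : I F → Cm N → ℂ :=
  fun c w => γ c.1 w c.2.1 c.2.2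

theorem sum_inl (hr : 0 < r) (u : I F → Cm N → ℂ) (t : Cm p) (a a' : Fin F.A) (w : F.Q a a')
    (j k : Fin N) :
    ∑ c', (glue F hr).g (Sum.inl (⟨(a, a'), w⟩, j, k)) c' t *
      u c' ((glue F hr).φ (Sum.inl (⟨(a, a'), w⟩, j, k)) c' t) =
    ((J F a a' w t)ᵀ * (Matrix.of fun l m => u (a', l, m) (F.c t a' ((F.c t a).symm w))) *
      J F a a' w t) j k := by
  classical
  rw [Fintype.sum_prod_type, Finset.sum_eq_single a']
  · simp only [glue, Sum.elim_inl, if_true, Matrix.mul_apply, Matrix.transpose_apply,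
      Matrix.of_apply, Finset.sum_mul]
    rw [Fintype.sum_prod_type, Finset.sum_comm]
    exact Finset.sum_congr rfl fun m _ => Finset.sum_congr rfl fun l _ => by ring
  · intro b _ hb
    simp [glue, hb]
  · simp

theorem sum_inr (hr : 0 < r) (u : I F → Cm N → ℂ) (t : Cm p) (a : Fin F.A)
    (w : ball (F.z a) (4 * F.ρ a)) (j k : Fin N) :
    ∑ c', (glue F hr).g (Sum.inr (⟨a, w⟩, j, k)) c' t *
      u c' ((glue F hr).φ (Sum.inr (⟨a, w⟩, j, k)) c' t) = -u (a, k, j) w := by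
  classical
  rw [Finset.sum_eq_single (a, k, j)]
  · simp [glue]
  · intro b _ hb
    simp [glue, hb]
  · simp

theorem cancel {J A B : Matrix (Fin N) (Fin N) ℂ} (hJ : J.det ≠ 0) (h : Jᵀ * A * J = Jᵀ * B * J) :
    A = B := by
  have h1 : IsUnit J := (Matrix.isUnit_iff_isUnit_det _).2 (Ne.isUnit hJ)
  have h2 : IsUnit Jᵀ := (Matrix.isUnit_iff_isUnit_det _).2 (by
    rw [Matrix.det_transpose]; exact Ne.isUnit hJ)
  exact h2.mul_left_cancel (h1.mul_right_cancel h)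

/-- `γ` are the matrices of `s` -/
def Mt (t : Cm p) (s : MF (Y t)) (γ : Fin F.A → Cm N → Matrix (Fin N) (Fin N) ℂ) : Prop :=
  ∀ a, Rep s (F.c t a) univ (γ a) ∧
    ∀ w ∈ (F.c t a).target, (γ a w)ᵀ = -γ a w ∧ ∀ j k, AnalyticAt ℂ (fun w => γ a w j k) w

theorem Mt.sub {t : Cm p} {s s' : MF (Y t)} {γ γ' : Fin F.A → Cm N → Matrix (Fin N) (Fin N) ℂ}
    (h : Mt t s γ) (h' : Mt t s' γ') (l : ℂ) :
    Mt t (fun e z => s' e z - l • s e z) fun a w => γ' a w - l • γ a w := fun a =>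
  ⟨fun e y he hy hO => by
      simp only [(h a).1 e y he hy hO, (h' a).1 e y he hy hO, Matrix.mul_sub, Matrix.sub_mul,
        Matrix.mul_smul, Matrix.smul_mul],
    fun w hw => ⟨by
      rw [Matrix.transpose_sub, Matrix.transpose_smul, ((h a).2 w hw).1, ((h' a).2 w hw).1,
        smul_neg, neg_sub']
      , fun j k => (((h' a).2 w hw).2 j k).sub (analyticAt_const.mul (((h a).2 w hw).2 j k))⟩⟩

theorem Mt.sol (hC : CHG) (hr : 0 < r) {t : Cm p} (ht : t ∈ ball t₀ r) {s : MF (Y t)}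
    {γ : Fin F.A → Cm N → Matrix (Fin N) (Fin N) ℂ} (h : Mt t s γ) :
    (glue F hr).Sol t (co γ) := by
  refine ⟨fun c => ⟨fun w hw => ?_, ?_⟩, ?_⟩
  · exact (((h c.1).2 w (F.tgt t ht _ (ball_subset_closedBall hw))).2
      _ _).differentiableAt.differentiableWithinAt
  · obtain ⟨M, hM⟩ := (isCompact_closedBall (F.z c.1) (4 * F.ρ c.1)).exists_bound_of_continuousOn
      (f := co γ c) fun w hw =>
        (((h c.1).2 w (F.tgt t ht _ hw)).2 _ _).continuousAt.continuousWithinAt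
    exact ⟨M, fun w hw => hM w (ball_subset_closedBall hw)⟩
  · rintro (⟨⟨⟨a, a'⟩, w⟩, j, k⟩ | ⟨⟨a, w⟩, j, k⟩)
    · rw [sum_inl]
      have hw : w.1 ∈ (F.c t a).target := F.tgt t ht _ (ball_subset_closedBall (F.sub _ _ w.2))
      have h1 := (F.c t a).map_target hw
      have h2 := (F.src t ht _ _ _ w.2).1
      have he := at_chart (n := N) ((F.c t a).symm w)
      obtain ⟨h3, h4⟩ := hC N (Y t) _ _ (F.co t ht a) (F.co t ht a') _ h1 h2 _ he
      have h5 := (h a).1 _ _ he h1 (mem_univ _)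
      rw [(h a').1 _ _ he h2 (mem_univ _), h3, (F.c t a).right_inv hw] at h5
      have h6 : γ a w = (J F a a' w t)ᵀ * γ a' (F.c t a' ((F.c t a).symm w)) * J F a a' w t :=
        cancel h4 (by rw [← h5, Matrix.transpose_mul]; simp only [J, Matrix.mul_assoc])
      exact congrFun (congrFun h6 j) k
    · rw [sum_inr]
      have h1 := ((h a).2 w (F.tgt t ht _ (ball_subset_closedBall w.2))).1
      have h2 := congrFun (congrFun h1 j) k
      simp only [Matrix.transpose_apply, Matrix.neg_apply] at h2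
      change γ a w j k = -γ a w k j
      rw [h2, neg_neg]

theorem Mt.zero {t : Cm p} (ht : t ∈ ball t₀ r) {s : MF (Y t)}
    {γ : Fin F.A → Cm N → Matrix (Fin N) (Fin N) ℂ} (h : Mt t s γ)
    (h0 : ∀ c : I F, ∀ w ∈ ball (F.z c.1) (4 * F.ρ c.1), co γ c w = 0) :
    ∀ e y, At e y → s e (e y) = 0 := fun e y he => by
  obtain ⟨a, h1, h2⟩ := F.cover t ht y
  have h3 : γ a (F.c t a y) = 0 := Matrix.ext fun j k => h0 (a, j, k) _ (ball_24 F a h2)
  rw [(h a).1 e y he h1 (mem_univ _), h3, Matrix.mul_zero, Matrix.zero_mul]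

theorem exists_mt (hO : OFF) {t : Cm p} (ht : t ∈ ball t₀ r) {s : MF (Y t)}
    (hs : IsHolTwoForm s) : ∃ γ, Mt (F := F) t s γ := by
  choose γ h1 h2 using fun a => hO N (Y t) s hs _ (F.co t ht a)
  exact ⟨γ, fun a => ⟨h1 a, h2 a⟩⟩

theorem form_smul {V : Mf N} {s : MF V} (hs : IsHolTwoForm s) (l : ℂ) :
    IsHolTwoForm fun (e : Chart N V.X) z => l • s e z :=
  ⟨fun e x he i j => analyticAt_const.mul (hs.holo e x he i j), fun e x he => by
    rw [Matrix.transpose_smul, hs.alt e x he, smul_neg], fun e e' x he he' => by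
    rw [hs.change e e' x he he', Matrix.mul_smul, Matrix.smul_mul]⟩

/-- the solutions at `t₀` come from holomorphic two-forms -/
theorem of_sol (hT : TOF) (hr : 0 < r) {u : I F → Cm N → ℂ} (hu : (glue F hr).Sol t₀ u) :
    ∃ s : MF (Y t₀), IsHolTwoForm s ∧ ∀ a, Rep s (F.c t₀ a) (ball (F.z a) (4 * F.ρ a))
      fun w => Matrix.of fun j k => u (a, j, k) w := by
  have h0 : t₀ ∈ ball t₀ r := mem_ball_self hr
  refine hT N (Y t₀) _ (F.c t₀) (fun a => ball (F.z a) (F.ρ a)) _ _ (F.co t₀ h0)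
    (fun _ => isOpen_ball) (ball_14 F) F.cover0 (fun a w hw => ⟨?_, fun j k => ?_⟩) ?_
  · ext j k
    have h1 := hu.2 (Sum.inr (⟨a, ⟨w, ball_14 F a hw⟩⟩, k, j))
    rw [sum_inr] at h1
    exact h1
  · exact P268.analyticAt_of_differentiableOn isOpen_ball (hu.1 (a, j, k)).1 (ball_14 F a hw)
  · intro a a' y hy hy' h1 h2
    have hq := F.big a a' _ h1 (by rwa [(F.c t₀ a).left_inv hy])
      (by rwa [(F.c t₀ a).left_inv hy])
    ext j k
    have h3 := hu.2 (Sum.inl (⟨(a, a'), ⟨_, hq⟩⟩, j, k))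
    rw [sum_inl] at h3
    simp only [J, (F.c t₀ a).left_inv hy] at h3
    exact h3

end Exc

open Exc in
theorem exc_of (hV : VB) (hO : OFF) (hC : CHG) (hT : TOF) : EXC := by
  intro p N Y t₀ r hr F hne ⟨s₁, hs₁⟩
  have h0 : t₀ ∈ ball t₀ r := mem_ball_self hr
  obtain ⟨s₀, hs₀, e₀, y₀, he₀, hy₀⟩ := hne t₀ h0
  obtain ⟨γ₀, hγ₀⟩ := exists_mt (F := F) hO h0 hs₀
  obtain ⟨a₀, ha₀, ha₀'⟩ := F.cover0 y₀
  have hJ := (hC N _ _ _ (F.co t₀ h0 a₀) (F.co t₀ h0 a₀) _ ha₀ ha₀ _ he₀).2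
  have hr₀ := (hγ₀ a₀).1 _ _ he₀ ha₀ (mem_univ _)
  obtain ⟨j₀, k₀, hjk⟩ : ∃ j k, γ₀ a₀ (F.c t₀ a₀ y₀) j k ≠ 0 := by
    by_contra! h
    exact hy₀ (by rw [hr₀, show γ₀ a₀ (F.c t₀ a₀ y₀) = 0 from Matrix.ext h, Matrix.mul_zero,
      Matrix.zero_mul])
  obtain ⟨r', h1, h2, h3, h4⟩ := hV p N (I F) _ _ t₀ r hr (glue F hr) (a₀, j₀, k₀) (F.c t₀ a₀ y₀)
    (ball_14 F a₀ ha₀') (fun u hu hu0 c w hw => by
      obtain ⟨s, hs, hrep⟩ := of_sol hT hr hu
      obtain ⟨α, hα⟩ := hs₁ s hs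
      obtain ⟨β, hβ⟩ := hs₁ s₀ hs₀
      have hb : β ≠ 0 := fun k => hy₀ (by rw [hβ _ _ he₀, k, zero_smul])
      have h5 : ∀ e y, At e y → s e (e y) = (α / β) • s₀ e (e y) := fun e y he => by
        rw [hα e y he, hβ e y he, smul_smul, div_mul_cancel₀ _ hb]
      have h6 := hrep a₀ _ _ he₀ ha₀ (ball_14 F a₀ ha₀')
      rw [h5 _ _ he₀, hr₀, ← Matrix.smul_mul, ← Matrix.mul_smul] at h6
      have h7 := congrFun (congrFun (cancel hJ h6) j₀) k₀
      simp only [Matrix.smul_apply, Matrix.of_apply, smul_eq_mul, hu0] at h7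
      have h8 : α / β = 0 := (mul_eq_zero.1 h7).resolve_right hjk
      have hw' : w ∈ (F.c t₀ c.1).target := F.tgt t₀ h0 _ (ball_subset_closedBall hw)
      have hy := (F.c t₀ c.1).map_target hw'
      have he := at_chart (n := N) ((F.c t₀ c.1).symm w)
      have h9 := hrep c.1 _ _ he hy (by rwa [(F.c t₀ c.1).right_inv hw'])
      rw [h5 _ _ he, h8, zero_smul, (F.c t₀ c.1).right_inv hw'] at h9
      have h10 := cancel (A := 0) (hC N _ _ _ (F.co t₀ h0 c.1) (F.co t₀ h0 c.1) _ hy hy _ he).2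
        (Eq.trans (by rw [Matrix.mul_zero, Matrix.zero_mul]) h9)
      exact (congrFun (congrFun h10 c.2.1) c.2.2).symm)
  have sub : ball t₀ r' ⊆ ball t₀ r := ball_subset_ball h2
  have key : ∀ t, ∃ γ : Fin F.A → Cm N → Matrix (Fin N) (Fin N) ℂ, t ∈ ball t₀ r' →
      γ a₀ (F.c t₀ a₀ y₀) j₀ k₀ = 1 ∧ ∃ s : MF (Y t), IsHolTwoForm s ∧ Ne0 s ∧ Mt t s γ := by
    intro t
    by_cases ht : t ∈ ball t₀ r'
    · obtain ⟨s, hs, e, y, he, hy⟩ := hne t (sub ht)
      obtain ⟨γ, hγ⟩ := exists_mt (F := F) hO (sub ht) hs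
      have hl : γ a₀ (F.c t₀ a₀ y₀) j₀ k₀ ≠ 0 := fun k =>
        hy (hγ.zero (sub ht) (h3 t ht _ (hγ.sol hC hr (sub ht)) k) e y he)
      obtain ⟨γ', hγ'⟩ := exists_mt (F := F) hO (sub ht)
        (form_smul hs (γ a₀ (F.c t₀ a₀ y₀) j₀ k₀)⁻¹)
      refine ⟨fun a w => (γ a₀ (F.c t₀ a₀ y₀) j₀ k₀)⁻¹ • γ a w, fun _ => ⟨?_,
        fun e z => (γ a₀ (F.c t₀ a₀ y₀) j₀ k₀)⁻¹ • s e z, form_smul hs _,
        ⟨e, y, he, smul_ne_zero (inv_ne_zero hl) hy⟩, ?_⟩⟩
      · simp only [Matrix.smul_apply, smul_eq_mul, inv_mul_cancel₀ hl]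
      · have h5 := hγ.sub hγ (1 - (γ a₀ (F.c t₀ a₀ y₀) j₀ k₀)⁻¹)
        simpa only [sub_smul, one_smul, sub_sub_cancel] using h5
    · exact ⟨0, fun h => absurd h ht⟩
  choose γ hγ using key
  refine ⟨r', h1, h2, fun a x => γ x.1 a x.2, fun a j k => ?_, fun t ht => ?_⟩
  · exact h4 (fun t => co (γ t)) (fun t ht =>
      let ⟨h5, _, _, _, h6⟩ := hγ t ht
      ⟨h6.sol hC hr (sub ht), h5⟩) (a, j, k)
  · obtain ⟨h5, s, hs, hn, h6⟩ := hγ t ht
    refine ⟨s, hs, hn, fun s' hs' => ?_, fun a e y he hy _ => (h6 a).1 e y he hy (mem_univ _)⟩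
    obtain ⟨γ', h7⟩ := exists_mt (F := F) hO (sub ht) hs'
    have h8 := h6.sub h7 (γ' a₀ (F.c t₀ a₀ y₀) j₀ k₀)
    refine ⟨_, fun e y he => sub_eq_zero.1 (h8.zero (sub ht) (h3 t ht _ (h8.sol hC hr (sub ht)) ?_)
      e y he)⟩
    simp [co, h5]

end Vale.Agent.P301Z.Ex
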