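import Vale.Agent.P301Z.Ex.Defs

/-! # P301, block EXTS: two-forms in holomorphic coordinates -/

open scoped Manifold ContDiff Topology Matrix
open Set Filter Metric
open Vale.Agent.P272.K Vale.Agent.P281Z
open Vale.Agent.P277Z (Hol at_chart)
open Vale.Agent.P301.H599 (IsHolTwoForm)

noncomputable section

namespace Vale.Agent.P301Z.Ex

namespace Form

variable {N : ℕ} {Y : Mf N} {a b c : Chart N Y.X} {y : Y.X}

theorem tr_an (ha : Co N a) (hb : Co N b) (h : y ∈ a.source) (h' : y ∈ b.source) :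
    AnalyticAt ℂ (fun z => b (a.symm z)) (a y) :=
  AnalyticAt.pi fun j => ha.an_hol (a.map_source h) (a := fun x => b x j) (by
    rw [a.left_inv h]; exact (hb.an y h').hol j)

theorem near (h : y ∈ a.source) {S : Set Y.X} (h' : S ∈ 𝓝 y) :
    ∀ᶠ w in 𝓝 (a y), w ∈ a.target ∧ a.symm w ∈ S :=
  (a.open_target.eventually_mem (a.map_source h)).and
    ((a.continuousAt_symm (a.map_source h)).eventually_mem (by rwa [a.left_inv h]))

theorem jcomp (ha : Co N a) (hb : Co N b) (hc : Co N c) (h : y ∈ a.source) (h' : y ∈ b.source)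
    (h'' : y ∈ c.source) : jacM a c y = jacM b c y * jacM a b y := by
  have h1 : (fun z => c (a.symm z)) =ᶠ[𝓝 (a y)] fun z => c (b.symm (b (a.symm z))) := by
    filter_upwards [near h (b.open_source.mem_nhds h')] with z hz
    rw [b.left_inv hz.2]
  have h2 : b (a.symm (a y)) = b y := by rw [a.left_inv h]
  have := jmat_comp (τ := fun z => b (a.symm z)) (σ := fun z => c (b.symm z)) (z := a y)
    (by rw [h2]; exact (tr_an hb hc h' h'').differentiableAt) (tr_an ha hb h h').differentiableAt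
  rw [jacM_eq, jacM_eq, jacM_eq, jmat_congr h1, this, h2]

theorem jself (h : y ∈ a.source) : jacM a a y = 1 := by
  rw [jacM_eq, ← jmat_id (a y)]
  exact jmat_congr (by filter_upwards [near h univ_mem] with z hz using a.right_inv hz.1)

theorem jmul (ha : Co N a) (hb : Co N b) (h : y ∈ a.source) (h' : y ∈ b.source) :
    jacM b a y * jacM a b y = 1 := by
  rw [← jcomp ha hb ha h h' h, jself h]

theorem jdet (ha : Co N a) (hb : Co N b) (h : y ∈ a.source) (h' : y ∈ b.source) :
    (jacM a b y).det ≠ 0 :=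
  right_ne_zero_of_mul_eq_one (by rw [← Matrix.det_mul, jmul ha hb h h', Matrix.det_one])

theorem jan (ha : Co N a) (hb : Co N b) (h : y ∈ a.source) (h' : y ∈ b.source) (j k : Fin N) :
    AnalyticAt ℂ (fun w => jacM a b (a.symm w) j k) (a y) := by
  refine (jmat_holo (tr_an ha hb h h').contDiffAt j k).analyticAt.congr ?_
  filter_upwards [near h univ_mem] with z hz
  rw [jacM_eq, a.right_inv hz.1]

theorem an_conj {J S : Cm N → Matrix (Fin N) (Fin N) ℂ} {w : Cm N}
    (hJ : ∀ j k, AnalyticAt ℂ (fun w => J w j k) w) (hS : ∀ j k, AnalyticAt ℂ (fun w => S w j k) w)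
    (j k : Fin N) : AnalyticAt ℂ (fun w => ((J w)ᵀ * S w * J w) j k) w := by
  simp only [Matrix.mul_apply, Matrix.transpose_apply]
  exact Finset.analyticAt_fun_sum _ fun _ _ =>
    (Finset.analyticAt_fun_sum _ fun _ _ => (hJ _ _).mul (hS _ _)).mul (hJ _ _)

theorem alt_conj {J S : Matrix (Fin N) (Fin N) ℂ} (h : Sᵀ = -S) : (Jᵀ * S * J)ᵀ = -(Jᵀ * S * J) := by
  rw [Matrix.transpose_mul, Matrix.transpose_mul, Matrix.transpose_transpose, h, Matrix.neg_mul,
    Matrix.mul_neg, Matrix.mul_assoc]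

theorem conj_conj (J K S : Matrix (Fin N) (Fin N) ℂ) :
    Kᵀ * (Jᵀ * S * J) * K = (J * K)ᵀ * S * (J * K) := by
  simp only [Matrix.transpose_mul, Matrix.mul_assoc]

end Form

open Form

theorem chg : CHG := fun _ _ _ _ hc hc' _ h h' _ he =>
  ⟨jcomp (co_chart he.1) hc hc' he.2 h h', jdet (co_chart he.1) hc he.2 h⟩

theorem off : OFF := by
  intro N Y s hs c hc
  obtain ⟨γ, hγ⟩ : ∃ γ : Cm N → Matrix (Fin N) (Fin N) ℂ, ∀ e y, At e y → y ∈ c.source →
      γ (c y) = (jacM c e y)ᵀ * s e (e y) * jacM c e y := by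
    refine ⟨fun w => (jacM c (chartAt (Cm N) (c.symm w)) (c.symm w))ᵀ *
      s (chartAt (Cm N) (c.symm w)) (chartAt (Cm N) (c.symm w) (c.symm w)) *
        jacM c (chartAt (Cm N) (c.symm w)) (c.symm w), fun e y he h => ?_⟩
    have h0 := at_chart (n := N) y
    simp only [c.left_inv h]
    rw [hs.change e _ y he h0, conj_conj, ← jcomp hc (co_chart he.1) (co_chart h0.1) h he.2 h0.2]
  refine ⟨γ, fun e y he h _ => ?_, fun w hw => ?_⟩
  · rw [hγ e y he h, conj_conj, jmul (co_chart he.1) hc he.2 h, Matrix.transpose_one,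
      Matrix.one_mul, Matrix.mul_one]
  obtain ⟨y, h, rfl⟩ : ∃ y ∈ c.source, c y = w := ⟨_, c.map_target hw, c.right_inv hw⟩
  obtain ⟨e, he⟩ : ∃ e : Chart N Y.X, At e y := ⟨_, at_chart y⟩
  refine ⟨by rw [hγ e y he h]; exact alt_conj (hs.alt e y he), fun j k => ?_⟩
  refine (an_conj (S := fun w => s e (e (c.symm w))) (jan hc (co_chart he.1) h he.2)
    (fun j k => (hs.holo e y he j k).comp_of_eq (tr_an hc (co_chart he.1) h he.2)
      (by rw [c.left_inv h])) j k).congr ?_
  filter_upwards [near h (e.open_source.mem_nhds he.2)] with w hw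
  rw [← hγ e _ ⟨he.1, hw.2⟩ (c.map_target hw.1), c.right_inv hw.1]

theorem tof : TOF := by
  intro N Y κ c O O' γ hc hO hs hcov hγ hch
  choose a ha hb using hcov
  obtain ⟨s, hr⟩ : ∃ s : MF Y, ∀ b, Rep s (c b) (O' b) (γ b) := by
    refine ⟨fun e z => (jacM e (c (a (e.symm z))) (e.symm z))ᵀ *
      γ (a (e.symm z)) (c (a (e.symm z)) (e.symm z)) * jacM e (c (a (e.symm z))) (e.symm z),
      fun b e y he h h' => ?_⟩
    simp only [he.left_inv]
    rw [hch b (a y) y h (ha y) h' (hb y), conj_conj,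
      ← jcomp (co_chart he.1) (hc b) (hc _) he.2 h (ha y)]
  have k : ∀ e y, At e y → s e (e y) = _ := fun e y he => hr (a y) e y he (ha y) (hs _ (hb y))
  refine ⟨s, ⟨fun e y he j l => ?_, fun e y he => ?_, fun e e' y he he' => ?_⟩, hr⟩
  · refine (an_conj (S := fun w => γ (a y) (c (a y) (e.symm w)))
      (jan (co_chart he.1) (hc _) he.2 (ha y)) (fun j l => ((hγ _ _ (hb y)).2 j l).comp_of_eq
        (tr_an (co_chart he.1) (hc _) he.2 (ha y)) (by rw [he.left_inv])) j l).congr ?_
    filter_upwards [near he.2 (inter_mem ((c (a y)).open_source.mem_nhds (ha y))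
      (((c (a y)).continuousAt (ha y)).preimage_mem_nhds ((hO _).mem_nhds (hb y))))] with w hw
    rw [← hr (a y) e _ (At.of_target he.1 hw.1) hw.2.1 (hs _ hw.2.2), e.right_inv hw.1]
  · rw [k e y he]
    exact alt_conj (hγ _ _ (hb y)).1
  · rw [k e y he, k e' y he', conj_conj,
      ← jcomp (co_chart he.1) (co_chart he'.1) (hc _) he.2 he'.2 (ha y)]

end Vale.Agent.P301Z.Ex
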