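import Vale.Agent.P301Z.Ex.Defs

/-!
# P301, block EXTS: coordinates of product type along a smooth fibre
-/

open scoped Manifold ContDiff Topology Matrix
open Set Filter Metric
open Vale.Agent.P272.K Vale.Agent.P281Z
open Vale.Agent.P277Z (Hol)

noncomputable section

namespace Vale.Agent.P301Z.Ex

namespace PcxA

variable {D p N : ℕ} {V : Mf D} {Z : Mf p} {f : V.X → Z.X} {τ : Chart p Z.X}

/-- the chart of a fibre -/
theorem fib_chart {s : Z.X} (hs : s ∈ τ.source) {Y : Mf N} {i : Y.X → V.X}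
    (hi : Emb N D i (f ⁻¹' {s})) [Nonempty Y.X] {Θ : OpenPartialHomeomorph V.X (Cm p × Cm N)}
    (hΘ : Co D Θ) (h1 : ∀ x ∈ Θ.source, f x ∈ τ.source ∧ (Θ x).1 = τ (f x)) :
    ∃ c : Chart N Y.X, Co N c ∧ (∀ y, y ∈ c.source ↔ i y ∈ Θ.source) ∧
      (∀ y, c y = (Θ (i y)).2) ∧ (∀ w, w ∈ c.target ↔ (τ s, w) ∈ Θ.target) ∧
      ∀ w, (τ s, w) ∈ Θ.target → i (c.symm w) = Θ.symm (τ s, w) := by
  have k1 : ∀ w, (τ s, w) ∈ Θ.target →
      i (Function.invFun i (Θ.symm (τ s, w))) = Θ.symm (τ s, w) := fun w hw => by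
    have h2 := h1 _ (Θ.map_target hw)
    rw [Θ.right_inv hw] at h2
    exact Function.invFun_eq (hi.ex (τ.injOn h2.1 hs h2.2.symm))
  have k2 : ∀ y, i y ∈ Θ.source → (τ s, (Θ (i y)).2) = Θ (i y) := fun y hy =>
    Prod.ext (by rw [(h1 _ hy).2, hi.fib]) rfl
  have k3 : Continuous fun w : Cm N => (τ s, w) := Continuous.prodMk_right _
  let c : Chart N Y.X :=
    { toFun := fun y => (Θ (i y)).2
      invFun := fun w => Function.invFun i (Θ.symm (τ s, w))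
      source := i ⁻¹' Θ.source
      target := (fun w => (τ s, w)) ⁻¹' Θ.target
      map_source' := fun y hy => by
        show (τ s, (Θ (i y)).2) ∈ Θ.target
        rw [k2 y hy]
        exact Θ.map_source hy
      map_target' := fun w hw => by
        show i _ ∈ Θ.source
        rw [k1 w hw]
        exact Θ.map_target hw
      left_inv' := fun y hy => by
        show Function.invFun i (Θ.symm (τ s, (Θ (i y)).2)) = y
        rw [k2 y hy, Θ.left_inv hy]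
        exact Function.leftInverse_invFun hi.inj y
      right_inv' := fun w hw => by
        show (Θ (i _)).2 = w
        rw [k1 w hw, Θ.right_inv hw]
      open_source := Θ.open_source.preimage hi.hol.cont
      open_target := Θ.open_target.preimage k3
      continuousOn_toFun := continuous_snd.comp_continuousOn
        (Θ.continuousOn.comp hi.hol.cont.continuousOn fun _ h => h)
      continuousOn_invFun := hi.cemb.isInducing.continuousOn_iff.2
        ((Θ.continuousOn_symm.comp k3.continuousOn fun _ h => h).congr k1) }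
  refine ⟨c, ⟨fun y hy => AnV.pi fun b => (hi.hol.at y).hol
    (((hΘ.an _ hy).cmp analyticAt_snd).hol b), fun w hw e he => ?_⟩, fun _ => Iff.rfl,
    fun _ => rfl, fun _ => Iff.rfl, k1⟩
  obtain ⟨g, g1, g2, g3⟩ := (hi.imm (c.symm w)).ret (hi.hol.at _)
  have e1 : i (c.symm w) = Θ.symm (τ s, w) := k1 w hw
  have h2 : AnalyticAt ℂ (fun w' => e (g (Θ.symm (τ s, w')))) w := AnalyticAt.pi fun b =>
    (hΘ.an_hol (a := fun x => e (g x) b) hw (e1 ▸ (g2.anV (g1.symm ▸ he)).hol b)).comp_of_eq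
      (f := fun w' => (τ s, w')) (analyticAt_const.prod analyticAt_id) rfl
  refine h2.congr ?_
  filter_upwards [c.open_target.mem_nhds hw, (c.continuousAt_symm hw).eventually g3] with u m1 m2
  rw [← k1 u m1]
  exact congrArg e m2

theorem loc {o : Z.X} (hD : D = p + N) (hf : HolM D p f) (hτ : At τ o) {x : V.X} (hx : f x = o)
    (hs : Sbm D p f x) : ∃ (Θ : OpenPartialHomeomorph V.X (Cm p × Cm N)) (ρ : ℝ), Co D Θ ∧
      x ∈ Θ.source ∧ 0 < ρ ∧
      (∀ y ∈ Θ.source, f y ∈ τ.source ∧ (Θ y).1 = τ (f y) ∧ Sbm D p f y) ∧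
      closedBall (τ o) (4 * ρ) ×ˢ closedBall (Θ x).2 (4 * ρ) ⊆ Θ.target := by
  subst hx
  obtain ⟨Θ, h1, h2, h3, h4⟩ := exists_co ((sbm_iff_ind (hf.at x) hτ).1 hs) (d := N)
    (by simp [hD]) (U := {y | f y ∈ τ.source ∧ Sbm D p f y})
    ((hf.cont.continuousAt.eventually (τ.open_source.mem_nhds hτ.2)).and (hs.near (hf.at x)))
  obtain ⟨ε, hε, h5⟩ := nhds_basis_closedBall.mem_iff.1 (Θ.open_target.mem_nhds (Θ.map_source h2))
  refine ⟨Θ, ε / 4, h1, h2, by positivity, fun y hy => ⟨(h3 hy).1, h4 y hy, (h3 hy).2⟩, ?_⟩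
  rw [show 4 * (ε / 4) = ε by ring, closedBall_prod_same,
    show (τ (f x), (Θ x).2) = Θ x from Prod.ext (h4 x h2).symm rfl]
  exact h5

variable {Θ Θ' : OpenPartialHomeomorph V.X (Cm p × Cm N)}

/-- the change of coordinates -/
def psi (Θ Θ' : OpenPartialHomeomorph V.X (Cm p × Cm N)) (v : Cm p × Cm N) : Cm N :=
  (Θ' (Θ.symm v)).2

theorem psi_an (h : Co D Θ) (h' : Co D Θ') {v : Cm p × Cm N} (hv : v ∈ Θ.target)
    (hv' : Θ.symm v ∈ Θ'.source) : AnalyticAt ℂ (psi Θ Θ') v :=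
  AnalyticAt.pi fun b => h.an_hol hv (((h'.an _ hv').cmp analyticAt_snd).hol b)

theorem tube (h : Co D Θ) (h' : Co D Θ') {g : V.X → Cm p} (k : ∀ y ∈ Θ.source, (Θ y).1 = g y)
    (k' : ∀ y ∈ Θ'.source, (Θ' y).1 = g y) {t₀ : Cm p} {z z' : Cm N} {ρ ρ' : ℝ} (h0 : 0 < ρ')
    (b : ∀ w ∈ closedBall z ρ, (t₀, w) ∈ Θ.target) (b' : ∀ w ∈ closedBall z' ρ', (t₀, w) ∈ Θ'.target) :
    ∃ B : ℝ, ∀ᶠ t in 𝓝 t₀, ∀ w ∈ ball z ρ, Θ.symm (t₀, w) ∈ Θ'.source →
      psi Θ Θ' (t₀, w) ∈ ball z' ρ' → (t, w) ∈ Θ.target ∧ Θ.symm (t, w) ∈ Θ'.source ∧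
        psi Θ Θ' (t, w) ∈ ball z' (2 * ρ') ∧ ‖fderiv ℂ (psi Θ Θ') (t, w)‖ ≤ B := by
  have k3 : Continuous fun w : Cm N => (t₀, w) := Continuous.prodMk_right _
  have hK : IsCompact (closedBall z ρ ∩ (fun w => Θ.symm (t₀, w)) ⁻¹'
      ((fun w => Θ'.symm (t₀, w)) '' closedBall z' ρ')) :=
    (isCompact_closedBall z ρ).of_isClosed_subset
      ((Θ.continuousOn_symm.comp k3.continuousOn b).preimage_isClosed_of_isClosed isClosed_closedBall
        ((isCompact_closedBall z' ρ').image_of_continuousOn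
          (Θ'.continuousOn_symm.comp k3.continuousOn b')).isClosed) inter_subset_left
  set K := closedBall z ρ ∩ (fun w => Θ.symm (t₀, w)) ⁻¹'
      ((fun w => Θ'.symm (t₀, w)) '' closedBall z' ρ') with eK
  have h1 : ∀ w ∈ K, Θ.symm (t₀, w) ∈ Θ'.source ∧ psi Θ Θ' (t₀, w) ∈ ball z' (2 * ρ') := by
    rintro w ⟨-, u, hu, e⟩
    simp only at e
    refine ⟨e ▸ Θ'.map_target (b' u hu), ?_⟩
    rw [psi, ← e, Θ'.right_inv (b' u hu)]
    exact closedBall_subset_ball (by linarith) hu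
  have h2 : ∀ w ∈ K, AnalyticAt ℂ (psi Θ Θ') (t₀, w) := fun w hw =>
    psi_an h h' (b w hw.1) (h1 w hw).1
  obtain ⟨B, hB⟩ := hK.exists_bound_of_continuousOn
    (f := fun w => fderiv ℂ (psi Θ Θ') (t₀, w)) fun w hw =>
      ((h2 w hw).fderiv.continuousAt.comp_of_eq k3.continuousAt rfl).continuousWithinAt
  refine ⟨B + 1, ?_⟩
  filter_upwards [hK.eventually_forall_of_forall_eventually (x₀ := t₀)
    (P := fun t w => (t, w) ∈ Θ.target ∧ Θ.symm (t, w) ∈ Θ'.source ∧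
      psi Θ Θ' (t, w) ∈ ball z' (2 * ρ') ∧ ‖fderiv ℂ (psi Θ Θ') (t, w)‖ ≤ B + 1) fun w hw => by
      filter_upwards [Θ.open_target.mem_nhds (b w hw.1),
        (Θ.continuousAt_symm (b w hw.1)).eventually (Θ'.open_source.mem_nhds (h1 w hw).1),
        (h2 w hw).continuousAt.eventually (isOpen_ball.mem_nhds (h1 w hw).2),
        (h2 w hw).fderiv.continuousAt.norm.eventually
          (eventually_le_nhds (lt_add_one B |>.trans_le' (hB w hw)))] with q m1 m2 m3 m4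
      exact ⟨m1, m2, m3, m4⟩] with t ht w hw m1 m2
  have hw' := ball_subset_closedBall hw
  refine ht w ⟨hw', psi Θ Θ' (t₀, w), ball_subset_closedBall m2, ?_⟩
  have e : (t₀, psi Θ Θ' (t₀, w)) = Θ' (Θ.symm (t₀, w)) := Prod.ext (by
    rw [k' _ m1, ← k _ (Θ.map_target (b w hw')), Θ.right_inv (b w hw')]) rfl
  simp only [e, Θ'.left_inv m1]

theorem jac_eq (h : Co D Θ) (h' : Co D Θ') {Y : Mf N} {i : Y.X → V.X} {c c' : Chart N Y.X}
    {t : Cm p} (c1 : ∀ w, w ∈ c.target ↔ (t, w) ∈ Θ.target)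
    (c2 : ∀ w, (t, w) ∈ Θ.target → i (c.symm w) = Θ.symm (t, w))
    (c3 : ∀ y, c' y = (Θ' (i y)).2) {w : Cm N} (hw : (t, w) ∈ Θ.target)
    (hw' : Θ.symm (t, w) ∈ Θ'.source) (j k : Fin N) :
    jacM c c' (c.symm w) j k = fderiv ℂ (psi Θ Θ') (t, w) (0, Pi.single k 1) j := by
  have h1 := (psi_an h h' hw hw').differentiableAt.hasFDerivAt.comp w
    (hasFDerivAt_prodMk_right (𝕜 := ℂ) t w)
  have h2 := (hasFDerivAt_pi'.1 h1 j).congr_of_eventuallyEq
    (f₁ := fun z => c' (c.symm z) j) (by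
      filter_upwards [c.open_target.mem_nhds ((c1 w).2 hw)] with u hu
      rw [c3, c2 u ((c1 u).1 hu)]
      rfl)
  show dz k (fun z => c' (c.symm z) j) (c (c.symm w)) = _
  rw [c.right_inv ((c1 w).2 hw), dz_of_holo h2.differentiableAt, h2.fderiv]
  rfl

end PcxA

open PcxA in
theorem pcx : PCX := by
  classical
  intro D p N V Z f o τ Y i U hf hτ hU hs hY
  have hoU := mem_of_mem_nhds hU
  have hD : D = p + N := by
    obtain ⟨h1, ⟨y⟩⟩ := hY o hoU
    exact h1.fib_dim hf (hs _ (h1.fib y))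
  choose Θ₀ ρ₀ co₀ mem₀ pos₀ src₀ tgt₀ using fun x : f ⁻¹' {o} => loc hD hf hτ x.2 (hs x x.2)
  have hO : ∀ x : f ⁻¹' {o},
      IsOpen ((Θ₀ x).source ∩ Θ₀ x ⁻¹' {v | v.2 ∈ ball (Θ₀ x x).2 (ρ₀ x)}) := fun x =>
    (Θ₀ x).isOpen_inter_preimage (isOpen_ball.preimage continuous_snd)
  obtain ⟨T, hT⟩ := (isClosed_singleton.preimage hf.cont).isCompact.elim_finite_subcover _ hO
    fun x hx => mem_iUnion.2 ⟨⟨x, hx⟩, mem₀ _, mem_ball_self (pos₀ _)⟩
  obtain ⟨A, x, hx⟩ : ∃ (A : ℕ) (x : Fin A → f ⁻¹' {o}), ∀ y, f y = o → ∃ a,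
      y ∈ (Θ₀ (x a)).source ∩ Θ₀ (x a) ⁻¹' {v | v.2 ∈ ball (Θ₀ (x a) (x a)).2 (ρ₀ (x a))} :=
    ⟨T.card, fun a => T.equivFin.symm a, fun y hy => by
      obtain ⟨u, hu, k⟩ := mem_iUnion₂.1 (hT hy)
      exact ⟨T.equivFin ⟨u, hu⟩, by simpa only [Equiv.symm_apply_apply] using k⟩⟩
  obtain ⟨Θ, eΘ⟩ : ∃ Θ, Θ = fun a => Θ₀ (x a) := ⟨_, rfl⟩
  obtain ⟨ρ, eρ⟩ : ∃ ρ, ρ = fun a => ρ₀ (x a) := ⟨_, rfl⟩
  obtain ⟨z, ez⟩ : ∃ z, z = fun a => (Θ₀ (x a) (x a)).2 := ⟨_, rfl⟩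
  have co : ∀ a, Co D (Θ a) := fun a => eΘ ▸ co₀ _
  have pos : ∀ a, 0 < ρ a := fun a => eρ ▸ pos₀ _
  have src : ∀ a, ∀ y ∈ (Θ a).source, f y ∈ τ.source ∧ (Θ a y).1 = τ (f y) ∧ Sbm D p f y :=
    fun a => eΘ ▸ src₀ _
  have tgt : ∀ a, ∀ t ∈ closedBall (τ o) (4 * ρ a), ∀ w ∈ closedBall (z a) (4 * ρ a),
      (t, w) ∈ (Θ a).target := fun a t ht w hw => by
    subst eΘ eρ ez
    exact tgt₀ _ ⟨ht, hw⟩
  have tg0 : ∀ a, ∀ w ∈ closedBall (z a) (4 * ρ a), (τ o, w) ∈ (Θ a).target := fun a =>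
    tgt a _ (mem_closedBall_self (by linarith [pos a]))
  have cov : ∀ᶠ s in 𝓝 o, ∀ y ∈ f ⁻¹' {s}, ∃ a, y ∈ (Θ a).source ∧ (Θ a y).2 ∈ ball (z a) (ρ a) := by
    subst eΘ eρ ez
    refine hf.cont.isClosedMap.eventually_nhds_fiber o fun y hy => ?_
    obtain ⟨a, ha⟩ := hx y hy
    filter_upwards [(hO _).mem_nhds ha] with y' hy' using ⟨a, hy'⟩
  choose B hB using fun a a' => tube (co a) (co a') (fun y hy => (src a y hy).2.1)
    (fun y hy => (src a' y hy).2.1) (pos a') (tg0 a) fun w hw =>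
      tg0 a' w (closedBall_subset_closedBall (by linarith [pos a']) hw)
  have hT0 : Tendsto τ.symm (𝓝 (τ o)) (𝓝 o) := P277Z.Slc.tendsto_symm hτ
  obtain ⟨r, hr, H⟩ := Metric.eventually_nhds_iff_ball.1
    (((τ.open_target.eventually_mem hτ.mem_target).and ((hT0.eventually hU).and
      (hT0.eventually cov))).and ((eventually_all.2 fun a =>
        closedBall_mem_nhds (τ o) (mul_pos four_pos (pos a))).and
          (eventually_all.2 fun a => eventually_all.2 fun a' => hB a a')))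
  obtain ⟨σ, hσ, hσ'⟩ : ∃ σ : Cm p → Z.X, (∀ t, σ t ∈ U ∧ σ t ∈ τ.source) ∧
      ∀ t ∈ ball (τ o) r, σ t = τ.symm t :=
    ⟨fun t => if t ∈ ball (τ o) r then τ.symm t else o, fun t => by
      beta_reduce
      split_ifs with q
      exacts [⟨(H t q).1.2.1, τ.map_target (H t q).1.1⟩, ⟨hoU, hτ.2⟩], fun t q => if_pos q⟩
  have eσ : ∀ t ∈ ball (τ o) r, τ (σ t) = t := fun t q => by
    rw [hσ' t q, τ.right_inv (H t q).1.1]
  choose c c0 c1 c2 c3 c4 using fun t a =>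
    @fib_chart D p N V Z f τ _ (hσ t).2 _ _ (hY _ (hσ t).1).1 (hY _ (hσ t).1).2 _ (co a)
      fun y hy => ⟨(src a y hy).1, (src a y hy).2.1⟩
  have d3 : ∀ t ∈ ball (τ o) r, ∀ a w, w ∈ (c t a).target ↔ (t, w) ∈ (Θ a).target :=
    fun t q a w => by rw [c3, eσ t q]
  have d4 : ∀ t ∈ ball (τ o) r, ∀ a w, (t, w) ∈ (Θ a).target →
      i _ ((c t a).symm w) = (Θ a).symm (t, w) := fun t q a w hw => by
    rw [c4 t a w (by rwa [eσ t q]), eσ t q]
  have d5 : ∀ t ∈ ball (τ o) r, ∀ a a' w, (t, w) ∈ (Θ a).target →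
      c t a' ((c t a).symm w) = psi (Θ a) (Θ a') (t, w) := fun t q a a' w hw => by
    rw [c2, d4 t q a w hw, psi]
  have cv : ∀ t ∈ ball (τ o) r, ∀ y, ∃ a, y ∈ (c t a).source ∧ c t a y ∈ ball (z a) (ρ a) :=
    fun t q y => by
      obtain ⟨a, h1, h2⟩ := (H t q).1.2.2 (i _ y) (((hY _ (hσ t).1).1.fib y).trans (hσ' t q))
      exact ⟨a, (c1 t a y).2 h1, c2 t a y ▸ h2⟩
  have h0 := mem_ball_self (x := τ o) hr
  let Q : Fin A → Fin A → Set (Cm N) := fun a a' => {w | w ∈ ball (z a) (4 * ρ a) ∧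
    (Θ a).symm (τ o, w) ∈ (Θ a').source ∧ psi (Θ a) (Θ a') (τ o, w) ∈ ball (z a') (ρ a')}
  have hQ := fun t q a a' w (hw : w ∈ Q a a') => (H t q).2.2 a a' w hw.1 hw.2.1 hw.2.2
  have hJ := fun t q a a' w hw => jac_eq (co a) (co a') (d3 t q a) (d4 t q a) (c2 t a')
    (hQ t q a a' w hw).1 (hQ t q a a' w hw).2.1
  have hA := fun t q a a' w hw => psi_an (co a) (co a') (hQ t q a a' w hw).1 (hQ t q a a' w hw).2.1
  have hP : ∀ (t : Cm p) (w : Cm N), AnalyticAt ℂ (fun t : Cm p => (t, w)) t := fun _ _ =>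
    analyticAt_id.prod analyticAt_const
  refine ⟨r, σ,
    { A := A, c := c, z := z, ρ := ρ, Q := Q, G := ∑ a, ∑ a', |B a a'|, pos := pos
      co := fun t _ a => c0 t a
      tgt := fun t q a w hw => (d3 t q a w).2 (tgt a t ((H t q).2.1 a) w hw)
      cover := fun t q y => (cv t q y).imp fun a k =>
        ⟨k.1, ball_subset_ball (by linarith [pos a]) k.2⟩
      cover0 := cv _ h0
      sub := fun a a' w hw => hw.1
      src := fun t q a a' w hw => ⟨(c1 t a' _).2 (d4 t q a w (hQ t q a a' w hw).1 ▸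
        (hQ t q a a' w hw).2.1), d5 t q a a' w (hQ t q a a' w hw).1 ▸ (hQ t q a a' w hw).2.2.1⟩
      big := fun a a' w hw k k' => ⟨hw, d4 _ h0 a w (tg0 a w (ball_subset_closedBall hw)) ▸
        (c1 _ a' _).1 k, d5 _ h0 a a' w (tg0 a w (ball_subset_closedBall hw)) ▸ k'⟩
      hol := fun a a' w hw => DifferentiableOn.congr (fun t q =>
        ((hA t q a a' w hw).comp_of_eq (hP t w) rfl).differentiableAt.differentiableWithinAt)
        fun t q => d5 t q a a' w (hQ t q a a' w hw).1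
      holJ := fun a a' w hw j k => DifferentiableOn.congr
        (f := fun t => fderiv ℂ (psi (Θ a) (Θ a')) (t, w) (0, Pi.single k 1) j) (fun t q =>
          (differentiableAt_pi.1 (((hA t q a a' w hw).fderiv.comp_of_eq (hP t w)
            rfl).differentiableAt.clm_apply (differentiableAt_const _)) j).differentiableWithinAt)
        fun t q => hJ t q a a' w hw j k
      bdd := fun t q a a' w hw j k => ?_ }, Θ, hr, fun t q => (H t q).1.1,
    fun t q => ⟨hσ' t q, (hσ t).1⟩, co, src, fun t _ a y => ⟨c1 t a y, c2 t a y⟩⟩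
  rw [hJ t q a a' w hw j k]
  refine (norm_le_pi_norm _ j).trans ((ContinuousLinearMap.le_opNorm _ _).trans ?_)
  rw [show ‖((0, Pi.single k 1) : Cm p × Cm N)‖ = 1 by simp [Pi.norm_single], mul_one]
  refine (hQ t q a a' w hw).2.2.2.trans ((le_abs_self _).trans ?_)
  exact (Finset.single_le_sum (f := fun a' => |B a a'|) (fun _ _ => abs_nonneg _)
    (Finset.mem_univ a')).trans (Finset.single_le_sum (f := fun a => ∑ a', |B a a'|)
      (fun _ _ => Finset.sum_nonneg fun _ _ => abs_nonneg _) (Finset.mem_univ a))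

end Vale.Agent.P301Z.Ex
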