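import Vale.Agent.P301Z.Ex.Defs
import Vale.Agent.P268.Hol

/-!
# P301, block EXTS: the theorem for a holomorphic map
-/

open scoped Manifold ContDiff Topology Matrix
open Set Filter Metric
open Vale.Agent.P272.K Vale.Agent.P281Z
open Vale.Agent.P277Z (Hol at_chart)
open Vale.Agent.P301.H599 (IsHolTwoForm)

noncomputable section

namespace Vale.Agent.P301Z.Ex

theorem Co.restr {D : ℕ} {X E : Type} [TopologicalSpace X] [ChartedSpace (Cm D) X]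
    [NormedAddCommGroup E] [NormedSpace ℂ E] {Θ : OpenPartialHomeomorph X E} (h : Co D Θ)
    {O : Set X} (hO : IsOpen O) : Co D (Θ.restrOpen O hO) :=
  ⟨fun y hy => h.an y hy.1, fun v hv => h.inv v hv.1⟩

theorem exp_of (hE : EXC) (hP : PCX) (hC : CHG) : EXP := by
  intro D p N V Z f o τ Y i U hf hτ hU hs hY hsp
  obtain ⟨r, σ, F, Θ, hr, h1, h2, h3, h4, h5⟩ := hP D p N V Z f o τ Y i U hf hτ hU hs
    fun t ht => ⟨(hY t ht).1, let ⟨_, _, _, y, _⟩ := (hY t ht).2; ⟨y⟩⟩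
  have ho : σ (τ o) = o := by rw [(h2 _ (mem_ball_self hr)).1, τ.left_inv hτ.2]
  obtain ⟨r', hr', hle, γ, hγ, hs'⟩ := hE p N _ (τ o) r hr F (fun t ht => (hY _ (h2 t ht).2).2)
    (by rw [ho]; exact hsp)
  have sub : ball (τ o) r' ⊆ ball (τ o) r := ball_subset_ball hle
  set W : Set Z.X := τ.source ∩ τ ⁻¹' ball (τ o) r' with hW
  have hWo : IsOpen W := τ.isOpen_inter_preimage isOpen_ball
  have hσ : ∀ t ∈ W, σ (τ t) = t := fun t ht => by rw [(h2 _ (sub ht.2)).1, τ.left_inv ht.1]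
  have key : ∀ t, ∃ s : MF (Y t), t ∈ W → IsHolTwoForm s ∧ Ne0 s ∧ Span s ∧
      (∀ y, ∃ a, i t y ∈ (Θ a).source ∧ (Θ a (i t y)).2 ∈ ball (F.z a) (4 * F.ρ a)) ∧
      ∀ a y, i t y ∈ (Θ a).source → (Θ a (i t y)).2 ∈ ball (F.z a) (4 * F.ρ a) → ∀ e, At e y →
        (jc (fun b y => (Θ a (i t y)).2 b) e y).det ≠ 0 ∧
        s e (e y) = (jc (fun b y => (Θ a (i t y)).2 b) e y)ᵀ * γ a (τ t, (Θ a (i t y)).2) *
          jc (fun b y => (Θ a (i t y)).2 b) e y := by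
    intro t
    by_cases ht : t ∈ W
    · obtain ⟨t', ht', rfl⟩ : ∃ t' ∈ ball (τ o) r', σ t' = t := ⟨τ t, ht.2, hσ t ht⟩
      have e1 : τ (σ t') = t' := by rw [(h2 _ (sub ht')).1, τ.right_inv (h1 (sub ht'))]
      obtain ⟨s, k1, k2, k3, k4⟩ := hs' t' ht'
      have k5 := h5 t' (sub ht')
      refine ⟨s, fun _ => ⟨k1, k2, k3, fun y => ?_, fun a y hy hy' e he => ?_⟩⟩
      · obtain ⟨a, l1, l2⟩ := F.cover t' (sub ht') y
        exact ⟨a, (k5 a y).1.1 l1, (k5 a y).2 ▸ ball_subset_ball (by linarith [F.pos a]) l2⟩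
      · have e2 : jc (fun b y => (Θ a (i (σ t') y)).2 b) e y = jacM e (F.c t' a) y := by
          simp only [jc, jacM, (k5 a _).2]
        have l1 := (k5 a y).1.2 hy
        rw [e2, e1, ← (k5 a y).2]
        exact ⟨(hC N _ _ _ (F.co t' (sub ht') a) (F.co t' (sub ht') a) _ l1 l1 _ he).2,
          k4 a e y he l1 ((k5 a y).2 ▸ hy')⟩
    · exact ⟨0, fun h => absurd h ht⟩
  choose s hs2 using key
  have hWU : W ⊆ U := fun t ht => hσ t ht ▸ (h2 _ (sub ht.2)).2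
  have fib : ∀ x, f x ∈ W → ∃ a, x ∈ (Θ a).source ∧ (Θ a x).2 ∈ ball (F.z a) (4 * F.ρ a) := by
    intro x hx
    obtain ⟨y, hy⟩ := (hY _ (hWU hx)).1.ex (y := x) rfl
    obtain ⟨a, k⟩ := (hs2 _ hx).2.2.2.1 y
    exact ⟨a, hy ▸ k⟩
  refine ⟨W, s, hWo, ⟨hτ.2, mem_ball_self hr'⟩, hWU, inter_subset_left, fun x hx => ?_,
    fun t ht => ⟨(hs2 t ht).1, (hs2 t ht).2.1, (hs2 t ht).2.2.1⟩, fun x hx => ?_⟩
  · obtain ⟨a, k, -⟩ := fib x hx
    exact (h4 a x k).2.2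
  · obtain ⟨a, k1, k2⟩ := fib x hx
    have hB : IsOpen (ball (τ o) r' ×ˢ ball (F.z a) (4 * F.ρ a)) := isOpen_ball.prod isOpen_ball
    have hO := (Θ a).isOpen_inter_preimage hB
    refine ⟨(Θ a).restrOpen _ hO, γ a, Co.restr (h3 a) hO,
      ⟨k1, k1, (h4 a x k1).2.1 ▸ hx.2, k2⟩, fun v hv j k => ?_, fun x' hx' => ?_,
      fun t ht y hy e he => ?_⟩
    · refine P268.analyticAt_of_differentiableOn hB (hγ a j k) ?_
      have l := hv.2.2
      rwa [mem_preimage, (Θ a).right_inv hv.1] at l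
    · have l := h4 a x' hx'.1
      exact ⟨⟨l.1, by rw [mem_preimage, ← l.2.1]; exact hx'.2.2.1⟩, l.2.1⟩
    · have l := (hs2 t ht).2.2.2.2 a y hy.1 hy.2.2.2 e he
      have l2 : (τ t, (Θ a (i t y)).2) = Θ a (i t y) :=
        Prod.ext (by rw [(h4 a _ hy.1).2.1, (hY t (hWU ht)).1.fib y]) rfl
      rw [l2] at l
      exact l

end Vale.Agent.P301Z.Ex
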