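import Vale.Agent.P301Z.Ex.Abs
import Vale.Agent.P301Z.Ex.Vb
import Vale.Agent.P301Z.Ex.Form
import Vale.Agent.P301Z.Ex.Pcx
import Vale.Agent.P301Z.Ex.Exc
import Vale.Agent.P301Z.Ex.Top
import Vale.Agent.P301Z.Ex.Alg

/-! # P301, block EXTS: assembly -/

namespace Vale.Agent.P301Z.Ex

theorem exc : EXC := exc_of (vb_of abs) off chg tof

theorem exp : EXP := exp_of exc pcx chg

theorem exts : Al.EXTS := exts_of exp

end Vale.Agent.P301Z.Ex
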