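import Vale.Agent.P281Z.Mf.Adj
import Vale.Agent.P301.H599.Stmt

/-!
# P301, block EXTS: the holomorphic two-form of a fibre depends holomorphically on the fibre
-/

open scoped Manifold ContDiff Topology Matrix
open Set Filter Metric
open Vale.Agent.P272.K Vale.Agent.P281Z
open Vale.Agent.P277Z (Hol)
open Vale.Agent.P301.H599 (IsHolTwoForm)

noncomputable section

namespace Vale.Agent.P301Z.Ex

/-- **ABS**: kernels of dimension one of a holomorphic family of linear maps -/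
def ABS : Prop :=
  ∀ (p : ℕ) (E : Type) [AddCommGroup E] [Module ℂ E] (ν : Seminorm ℂ E) (Q : Type)
    (D : Cm p → E →ₗ[ℂ] (Q → ℂ)) (ev : E →ₗ[ℂ] ℂ) (t₀ : Cm p) (r G C : ℝ), 0 < r →
    (∀ u q, DifferentiableOn ℂ (fun t => D t u q) (ball t₀ r)) →
    (∀ t ∈ ball t₀ r, ∀ u q, ‖D t u q‖ ≤ G * ν u) →
    (∀ u (c : ℝ), 0 ≤ c → (∀ q, ‖D t₀ u q‖ ≤ c) → ‖ev u‖ ≤ c → ν u ≤ C * c) →
    ∃ r' : ℝ, 0 < r' ∧ r' ≤ r ∧ (∀ t ∈ ball t₀ r', ∀ u, D t u = 0 → ev u = 0 → ν u = 0) ∧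
      ∀ U : Cm p → E, (∀ t ∈ ball t₀ r', D t (U t) = 0 ∧ ev (U t) = 1) →
        (∃ L : ℝ, ∀ t ∈ ball t₀ r', ∀ t' ∈ ball t₀ r', ν (U t - U t') ≤ L * ‖t - t'‖) ∧
        ∀ l : E →ₗ[ℂ] ℂ, (∀ u, ‖l u‖ ≤ ν u) → DifferentiableOn ℂ (fun t => l (U t)) (ball t₀ r')

/-- bounded holomorphic functions on the balls -/
def Coch {N : ℕ} {ι : Type} (z : ι → Cm N) (ρ : ι → ℝ) (u : ι → Cm N → ℂ) : Prop :=
  ∀ c, DifferentiableOn ℂ (u c) (ball (z c) (4 * ρ c)) ∧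
    ∃ M : ℝ, ∀ w ∈ ball (z c) (4 * ρ c), ‖u c w‖ ≤ M

/-- a holomorphic family of gluing conditions -/
structure Glue (p N : ℕ) (ι : Type) (z : ι → Cm N) (ρ : ι → ℝ) (t₀ : Cm p) (r : ℝ) :
    Type 1 where
  Q : Type
  c : Q → ι
  w : Q → Cm N
  g : Q → ι → Cm p → ℂ
  φ : Q → ι → Cm p → Cm N
  G : ℝ
  pos : ∀ c, 0 < ρ c
  mem : ∀ q, w q ∈ ball (z (c q)) (4 * ρ (c q))
  holg : ∀ q c', DifferentiableOn ℂ (g q c') (ball t₀ r)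
  bdd : ∀ q c', ∀ t ∈ ball t₀ r, ‖g q c' t‖ ≤ G
  holφ : ∀ q c', DifferentiableOn ℂ (φ q c') (ball t₀ r)
  maps : ∀ q c', ∀ t ∈ ball t₀ r, φ q c' t ∈ ball (z c') (4 * ρ c')
  big : ∀ c₀, ∀ w₀ ∈ ball (z c₀) (4 * ρ c₀), ∃ q, c q = c₀ ∧ w q = w₀ ∧
    ∀ c', φ q c' t₀ ∈ closedBall (z c') (2 * ρ c')

/-- `u` satisfies the gluing conditions at `t` -/
def Glue.Sol {p N : ℕ} {ι : Type} [Fintype ι] {z : ι → Cm N} {ρ : ι → ℝ} {t₀ : Cm p} {r : ℝ}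
    (Γ : Glue p N ι z ρ t₀ r) (t : Cm p) (u : ι → Cm N → ℂ) : Prop :=
  Coch z ρ u ∧ ∀ q, u (Γ.c q) (Γ.w q) = ∑ c', Γ.g q c' t * u c' (Γ.φ q c' t)

/-- **VB**: the normalised solutions are holomorphic in all variables -/
def VB : Prop :=
  ∀ (p N : ℕ) (ι : Type) [Fintype ι] (z : ι → Cm N) (ρ : ι → ℝ) (t₀ : Cm p) (r : ℝ), 0 < r →
    ∀ (Γ : Glue p N ι z ρ t₀ r) (c₀ : ι) (w₀ : Cm N), w₀ ∈ ball (z c₀) (4 * ρ c₀) →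
    (∀ u, Γ.Sol t₀ u → u c₀ w₀ = 0 → ∀ c, ∀ w ∈ ball (z c) (4 * ρ c), u c w = 0) →
    ∃ r' : ℝ, 0 < r' ∧ r' ≤ r ∧
      (∀ t ∈ ball t₀ r', ∀ u, Γ.Sol t u → u c₀ w₀ = 0 →
        ∀ c, ∀ w ∈ ball (z c) (4 * ρ c), u c w = 0) ∧
      ∀ U : Cm p → ι → Cm N → ℂ, (∀ t ∈ ball t₀ r', Γ.Sol t (U t) ∧ U t c₀ w₀ = 1) → ∀ c,
        DifferentiableOn ℂ (fun x : Cm p × Cm N => U x.1 c x.2)
          (ball t₀ r' ×ˢ ball (z c) (4 * ρ c))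

/-- matrix fields in the charts -/
abbrev MF {N : ℕ} (Y : Mf N) : Type := Chart N Y.X → Cm N → Matrix (Fin N) (Fin N) ℂ

/-- `s` does not vanish identically -/
def Ne0 {N : ℕ} {Y : Mf N} (s : MF Y) : Prop := ∃ e y, At e y ∧ s e (e y) ≠ 0

/-- all holomorphic two-forms are multiples of `s` -/
def Span {N : ℕ} {Y : Mf N} (s : MF Y) : Prop :=
  ∀ s' : MF Y, IsHolTwoForm s' → ∃ a : ℂ, ∀ e y, At e y → s' e (e y) = a • s e (e y)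

/-- holomorphic coordinates on the members of a family, with overlaps independent of `t` -/
structure FC {p N : ℕ} (Y : Cm p → Mf N) (t₀ : Cm p) (r : ℝ) where
  A : ℕ
  c : ∀ t, Fin A → Chart N (Y t).X
  z : Fin A → Cm N
  ρ : Fin A → ℝ
  Q : Fin A → Fin A → Set (Cm N)
  G : ℝ
  pos : ∀ a, 0 < ρ a
  co : ∀ t ∈ ball t₀ r, ∀ a, Co N (c t a)
  tgt : ∀ t ∈ ball t₀ r, ∀ a, closedBall (z a) (4 * ρ a) ⊆ (c t a).target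
  cover : ∀ t ∈ ball t₀ r, ∀ y, ∃ a, y ∈ (c t a).source ∧ c t a y ∈ ball (z a) (2 * ρ a)
  cover0 : ∀ y, ∃ a, y ∈ (c t₀ a).source ∧ c t₀ a y ∈ ball (z a) (ρ a)
  sub : ∀ a a', Q a a' ⊆ ball (z a) (4 * ρ a)
  src : ∀ t ∈ ball t₀ r, ∀ a a', ∀ w ∈ Q a a', (c t a).symm w ∈ (c t a').source ∧
    c t a' ((c t a).symm w) ∈ ball (z a') (2 * ρ a')
  big : ∀ a a', ∀ w ∈ ball (z a) (4 * ρ a), (c t₀ a).symm w ∈ (c t₀ a').source →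
    c t₀ a' ((c t₀ a).symm w) ∈ ball (z a') (ρ a') → w ∈ Q a a'
  hol : ∀ a a', ∀ w ∈ Q a a', DifferentiableOn ℂ (fun t => c t a' ((c t a).symm w)) (ball t₀ r)
  holJ : ∀ a a', ∀ w ∈ Q a a', ∀ j k,
    DifferentiableOn ℂ (fun t => jacM (c t a) (c t a') ((c t a).symm w) j k) (ball t₀ r)
  bdd : ∀ t ∈ ball t₀ r, ∀ a a', ∀ w ∈ Q a a', ∀ j k,
    ‖jacM (c t a) (c t a') ((c t a).symm w) j k‖ ≤ G

/-- `γ` is the matrix of `s` in the coordinates `c`, on the set `O` -/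
def Rep {N : ℕ} {Y : Mf N} (s : MF Y) (c : Chart N Y.X) (O : Set (Cm N))
    (γ : Cm N → Matrix (Fin N) (Fin N) ℂ) : Prop :=
  ∀ e y, At e y → y ∈ c.source → c y ∈ O → s e (e y) = (jacM e c y)ᵀ * γ (c y) * jacM e c y

/-- **OFF**: the matrix of a holomorphic two-form in holomorphic coordinates -/
def OFF : Prop :=
  ∀ (N : ℕ) (Y : Mf N) (s : MF Y), IsHolTwoForm s → ∀ c : Chart N Y.X, Co N c →
    ∃ γ : Cm N → Matrix (Fin N) (Fin N) ℂ, Rep s c univ γ ∧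
      ∀ w ∈ c.target, (γ w)ᵀ = -γ w ∧ ∀ j k, AnalyticAt ℂ (fun w => γ w j k) w

/-- **CHG**: two representations of the same field -/
def CHG : Prop :=
  ∀ (N : ℕ) (Y : Mf N) (c c' : Chart N Y.X), Co N c → Co N c' → ∀ y ∈ c.source, y ∈ c'.source →
    ∀ e, At e y → jacM e c' y = jacM c c' y * jacM e c y ∧ (jacM e c y).det ≠ 0

/-- **TOF**: compatible matrices define a holomorphic two-form -/
def TOF : Prop :=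
  ∀ (N : ℕ) (Y : Mf N) (κ : Type) (c : κ → Chart N Y.X) (O O' : κ → Set (Cm N))
    (γ : κ → Cm N → Matrix (Fin N) (Fin N) ℂ), (∀ a, Co N (c a)) → (∀ a, IsOpen (O a)) →
    (∀ a, O a ⊆ O' a) → (∀ y, ∃ a, y ∈ (c a).source ∧ c a y ∈ O a) →
    (∀ a, ∀ w ∈ O a, (γ a w)ᵀ = -γ a w ∧ ∀ j k, AnalyticAt ℂ (fun w => γ a w j k) w) →
    (∀ a a' y, y ∈ (c a).source → y ∈ (c a').source → c a y ∈ O' a → c a' y ∈ O a' →
      γ a (c a y) = (jacM (c a) (c a') y)ᵀ * γ a' (c a' y) * jacM (c a) (c a') y) →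
    ∃ s : MF Y, IsHolTwoForm s ∧ ∀ a, Rep s (c a) (O' a) (γ a)

/-- **EXC**: the theorem in the coordinates of the family -/
def EXC : Prop :=
  ∀ (p N : ℕ) (Y : Cm p → Mf N) (t₀ : Cm p) (r : ℝ), 0 < r → ∀ F : FC Y t₀ r,
    (∀ t ∈ ball t₀ r, ∃ s : MF (Y t), IsHolTwoForm s ∧ Ne0 s) → (∃ s : MF (Y t₀), Span s) →
    ∃ r' : ℝ, 0 < r' ∧ r' ≤ r ∧ ∃ γ : Fin F.A → Cm p × Cm N → Matrix (Fin N) (Fin N) ℂ,
      (∀ a j k, DifferentiableOn ℂ (fun x => γ a x j k)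
        (ball t₀ r' ×ˢ ball (F.z a) (4 * F.ρ a))) ∧
      ∀ t ∈ ball t₀ r', ∃ s : MF (Y t), IsHolTwoForm s ∧ Ne0 s ∧ Span s ∧
        ∀ a, Rep s (F.c t a) (ball (F.z a) (4 * F.ρ a)) fun w => γ a (t, w)

/-- **PCX**: coordinates of product type along a smooth fibre -/
def PCX : Prop :=
  ∀ (D p N : ℕ) (V : Mf D) (Z : Mf p) (f : V.X → Z.X) (o : Z.X) (τ : Chart p Z.X)
    (Y : Z.X → Mf N) (i : ∀ t, (Y t).X → V.X) (U : Set Z.X), HolM D p f → At τ o → U ∈ 𝓝 o →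
    (∀ x, f x = o → Sbm D p f x) → (∀ t ∈ U, Emb N D (i t) (f ⁻¹' {t}) ∧ Nonempty (Y t).X) →
    ∃ (r : ℝ) (σ : Cm p → Z.X) (F : FC (fun t => Y (σ t)) (τ o) r)
      (Θ : Fin F.A → OpenPartialHomeomorph V.X (Cm p × Cm N)), 0 < r ∧ ball (τ o) r ⊆ τ.target ∧
      (∀ t ∈ ball (τ o) r, σ t = τ.symm t ∧ σ t ∈ U) ∧ (∀ a, Co D (Θ a)) ∧
      (∀ a, ∀ x ∈ (Θ a).source, f x ∈ τ.source ∧ (Θ a x).1 = τ (f x) ∧ Sbm D p f x) ∧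
      ∀ t ∈ ball (τ o) r, ∀ a y, (y ∈ (F.c t a).source ↔ i (σ t) y ∈ (Θ a).source) ∧
        F.c t a y = (Θ a (i (σ t) y)).2

/-- the Jacobian matrix of `h : Y → ℂ^k` in the chart `e` -/
def jc {N : ℕ} {Y κ : Type} [TopologicalSpace Y] (h : κ → Y → ℂ) (e : Chart N Y) (y : Y) :
    Matrix κ (Fin N) ℂ := Matrix.of fun a b => dz b (fun z => h a (e.symm z)) (e y)

/-- the forms `s t`, `t ∈ W`, on the fibres of `f` are a holomorphic relative two-form -/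
def Rel {D p N : ℕ} {V : Mf D} {Z : Mf p} (f : V.X → Z.X) {Y : Z.X → Mf N}
    (i : ∀ t, (Y t).X → V.X) (W : Set Z.X) (τ : Chart p Z.X) (s : ∀ t, MF (Y t)) : Prop :=
  ∀ x, f x ∈ W → ∃ (Θ : OpenPartialHomeomorph V.X (Cm p × Cm N))
    (γ : Cm p × Cm N → Matrix (Fin N) (Fin N) ℂ), Co D Θ ∧ x ∈ Θ.source ∧
    (∀ v ∈ Θ.target, ∀ j k, AnalyticAt ℂ (fun v => γ v j k) v) ∧
    (∀ x' ∈ Θ.source, f x' ∈ W ∧ (Θ x').1 = τ (f x')) ∧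
    ∀ t ∈ W, ∀ y, i t y ∈ Θ.source → ∀ e, At e y →
      (jc (fun a y => (Θ (i t y)).2 a) e y).det ≠ 0 ∧
      s t e (e y) = (jc (fun a y => (Θ (i t y)).2 a) e y)ᵀ * γ (Θ (i t y)) *
        jc (fun a y => (Θ (i t y)).2 a) e y

/-- **EXP**: the theorem, with coordinates of product type -/
def EXP : Prop :=
  ∀ (D p N : ℕ) (V : Mf D) (Z : Mf p) (f : V.X → Z.X) (o : Z.X) (τ : Chart p Z.X)
    (Y : Z.X → Mf N) (i : ∀ t, (Y t).X → V.X) (U : Set Z.X), HolM D p f → At τ o → U ∈ 𝓝 o →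
    (∀ x, f x = o → Sbm D p f x) →
    (∀ t ∈ U, Emb N D (i t) (f ⁻¹' {t}) ∧ ∃ s : MF (Y t), IsHolTwoForm s ∧ Ne0 s) →
    (∃ s : MF (Y o), Span s) →
    ∃ (W : Set Z.X) (s : ∀ t, MF (Y t)), IsOpen W ∧ o ∈ W ∧ W ⊆ U ∧ W ⊆ τ.source ∧
      (∀ x, f x ∈ W → Sbm D p f x) ∧
      (∀ t ∈ W, IsHolTwoForm (s t) ∧ Ne0 (s t) ∧ Span (s t)) ∧ Rel f i W τ s

end Vale.Agent.P301Z.Ex
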